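import Vale.Agent.P133Z.Step

/-! The main estimate, for arbitrary Hermitian contractions. -/

open scoped ComplexOrder

namespace Vale.Agent.N133X

open Vale.Agent.P133Z

theorem sf_conj {ι κ : Type*} [Fintype ι] [Fintype κ] [DecidableEq κ] {T : ι → κ → ℂ} {C : ℝ}
    (h : SF T C) : SF (fun p q => star (T p q)) C := by
  obtain ⟨L, hL⟩ := h
  refine ⟨fun p q => star (L p q), fun q q' => ?_⟩
  have := congrArg star (hL q q')
  simpa only [star_add, star_sum, star_mul', apply_ite star, star_zero, Complex.star_def,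
    Complex.conj_ofReal] using this

variable {B : Type*} [NonUnitalCStarAlgebra B]

/-- the image of a scalar matrix -/
def psi {J H : Type*} [Fintype H] (x : J → H → B) (W : H → H → ℂ) (j j' : J) : B :=
  ∑ q, (∑ s, W s q • x j s) * star (x j' q)

/-- the perturbation -/
def pert2 {n r : ℕ} {H : Type} [Fintype H] (V : Option (Fin r) × Fin n → B) (x : Fin n → H → B)
    (W : Fin r → H → H → ℂ) : B :=
  ∑ i, ∑ j, ∑ j', V (some i, j) * psi x (W i) j j' * star (V (some i, j'))

theorem map_pert2 {C : Type*} [NonUnitalCStarAlgebra C] (π : B →⋆ₙₐ[ℂ] C) {n r : ℕ} {H : Type}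
    [Fintype H] (V : Option (Fin r) × Fin n → B) (x : Fin n → H → B) (W : Fin r → H → H → ℂ) :
    π (pert2 V x W) = pert2 (fun p => π (V p)) (fun j p => π (x j p)) W := by
  simp only [pert2, psi, map_sum, map_mul, map_star, map_smul]

theorem star_psi {J H : Type*} [Fintype H] (x : J → H → B) {W : H → H → ℂ}
    (hW : ∀ p q, star (W p q) = W q p) (j j' : J) : star (psi x W j j') = psi x W j' j := by
  simp only [psi, star_sum, star_mul, star_star, star_smul, hW, Finset.sum_mul, smul_mul_assoc]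
  exact Finset.sum_comm

theorem star_pert2 {n r : ℕ} {H : Type} [Fintype H] (V : Option (Fin r) × Fin n → B)
    (x : Fin n → H → B) {W : Fin r → H → H → ℂ} (hW : ∀ i p q, star (W i p q) = W i q p) :
    star (pert2 V x W) = pert2 V x W := by
  simp only [pert2, star_sum, star_mul, star_star, star_psi x (hW _), mul_assoc]
  refine Finset.sum_congr rfl fun i _ => ?_
  rw [Finset.sum_comm]

theorem unit_psi {J H : Type*} [Fintype H] {x : J → H → B} {e : B} (hes : star e = e)
    (he : ∀ j p, e * x j p = x j p) (W : H → H → ℂ) (j j' : J) :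
    e * psi x W j j' * e = psi x W j j' := by
  have h1 : ∀ j p, star (x j p) * e = star (x j p) := fun j p => by
    rw [← hes, ← star_mul, he]
  simp only [psi, Finset.mul_sum, Finset.sum_mul, ← mul_assoc, mul_smul_comm, he]
  simp only [mul_assoc, h1]

variable [PartialOrder B] [StarOrderedRing B]

theorem norm_pair_le {κ : Type*} [Fintype κ] {a w : κ → B} {c : ℝ} (ha : ‖col a‖ ≤ c)
    (hw : ‖col w‖ ≤ c) : ‖∑ k, star (a k) * w k‖ ≤ c := by
  have h3 : 0 ≤ c := (norm_nonneg _).trans ha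
  refine le_of_pow_le_pow_left₀ two_ne_zero h3 ((cs_norm a w).trans ?_)
  rw [sq]
  exact mul_le_mul ha hw (norm_nonneg _) h3

theorem col_herm {H : Type*} [Fintype H] [DecidableEq H] {W : H → H → ℂ}
    (hW : ∀ p q, star (W p q) = W q p) (h : SF W 1) (u : H → B) :
    col (fun q => star (∑ s, W s q • u s)) ≤ col fun s => star (u s) := by
  simpa only [star_sum, star_smul, hW, one_smul] using h.col_le fun s => star (u s)

theorem norm_psi_le {J H : Type*} [Fintype J] [Fintype H] [DecidableEq H] {x : J → H → B} {g : B}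
    {b : ℝ} (h : Orth x g b) (hg : 0 ≤ g) (hb : 0 ≤ b) {W : H → H → ℂ}
    (hW : ∀ p q, star (W p q) = W q p) (h1 : SF W 1) (j j' : J) :
    ‖psi x W j j'‖ ≤ ‖g‖ + (Fintype.card H : ℝ) ^ 2 * b := by
  simpa only [star_star, psi] using norm_pair_le
    ((norm_mono (col_nonneg _) (col_herm hW h1 (x j))).trans (h.row hg hb j)) (h.row hg hb j')

theorem norm_pert2_le {n r : ℕ} {H : Type} [Fintype H] [DecidableEq H]
    {V : Option (Fin r) × Fin n → B} {e : B} {β : ℝ}
    (hV : ∀ p q, ‖star (V p) * V q - (if p = q then e else 0)‖ ≤ β) (he0 : 0 ≤ e) (he : ‖e‖ ≤ 1)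
    (hβ : 0 ≤ β) (hβ1 : ((r : ℝ) * n) ^ 2 * β ≤ 1) {x : Fin n → H → B} {g : B} {b : ℝ}
    (hx : Orth x g b) (hg : 0 ≤ g) (hb : 0 ≤ b) {W : Fin r → H → H → ℂ}
    (hW : ∀ i p q, star (W i p q) = W i q p) (h1 : ∀ i, SF (W i) 1) :
    ‖pert2 V x W‖ ≤ n * (‖g‖ + (Fintype.card H : ℝ) ^ 2 * b) * 2 := by
  let ξ : Fin r × H → B := fun p => ∑ j, V (some p.1, j) * x j p.2
  have e0 : ∀ W : Fin r → H → H → ℂ, pert2 V x W =
      ∑ p : Fin r × H, star (star (∑ s, W p.1 s p.2 • ξ (p.1, s))) * star (ξ p) := fun W => by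
    simp only [pert2, psi, ξ, Fintype.sum_prod_type, star_star, star_sum, star_mul,
      Finset.mul_sum, Finset.sum_mul, mul_assoc, Finset.smul_sum, smul_mul_assoc, mul_smul_comm]
    refine Finset.sum_congr rfl fun i _ => ?_
    symm
    rw [Finset.sum_comm]
    rw [Finset.sum_comm (s := (Finset.univ : Finset (Fin n))) (t := (Finset.univ : Finset (Fin n)))]
    refine Finset.sum_congr rfl fun j' _ => ?_
    rw [Finset.sum_congr rfl fun _ _ => Finset.sum_comm, Finset.sum_comm]
  have e1 : pert V x (fun _ => id) = col fun p => star (ξ p) := by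
    have := e0 fun _ s q => if s = q then 1 else 0
    simp only [pert2, psi, ite_smul, one_smul, zero_smul, Finset.sum_ite_eq', Finset.mem_univ,
      if_true] at this
    exact this
  have e2 := norm_pert_le hV he0 he hβ hβ1 hx hg hb (τ := fun _ => id) fun _ _ => rfl
  rw [e1] at e2
  rw [e0]
  refine norm_pair_le ((norm_mono (col_nonneg _) ?_).trans e2) e2
  simp only [col, Fintype.sum_prod_type]
  exact Finset.sum_le_sum fun i _ => col_herm (hW i) (h1 i) fun s => ξ (i, s)

theorem pair_bd {κ : Type*} [Fintype κ] {z w : κ → B} {c : ℝ} (hc : 0 ≤ c)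
    (h : col w ≤ (c ^ 2) • col z) : ‖∑ k, star (z k) * w k‖ ≤ c * ‖col z‖ := by
  have e := norm_mono (col_nonneg _) h
  rw [norm_smul, Real.norm_of_nonneg (by positivity)] at e
  refine le_of_pow_le_pow_left₀ two_ne_zero (by positivity) ((cs_norm z w).trans ?_)
  nlinarith [norm_nonneg (col z)]

theorem core2 {n r : ℕ} (hr : 1 ≤ r) {H : Type} [Fintype H] [DecidableEq H] [Nonempty H]
    {W : Fin r → H → H → ℂ} (h1 : ∀ i, SF (W i) 1) {δ : ℝ}
    (h2 : δ * r * Fintype.card H ≤ ∑ i, ∑ p, ∑ q, ‖W i p q‖ ^ 2) {x : Fin n → H → B} {g : B}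
    (hg : 0 ≤ g) (hg1 : ‖g‖ ≤ 1) {b : ℝ} (hb : 0 ≤ b) (hb1 : b ≤ 1) (hx : Orth x g b)
    {y : Fin r → Fin n → Fin n → B} {c ε : ℝ} (hc : 0 ≤ c) (hε : 0 ≤ ε)
    (hy : col (fun p : H × Fin n => ∑ q : H × Fin n,
      (∑ i, star (W i p.1 q.1) • y i p.2 q.2) * x q.2 q.1) ≤
        ((c * r) ^ 2) • col fun q : H × Fin n => x q.2 q.1)
    (he : ∀ i j j', ‖y i j j' + psi x (W i) j j'‖ ≤ ε) :
    δ * ‖g‖ ^ 2 ≤ 2 * c + 2 * n * ε + 3 * (Fintype.card H : ℝ) ^ 3 * b := by
  set N : ℝ := (Fintype.card H : ℝ) with hN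
  have hN0 : 0 < N := by rw [hN]; exact_mod_cast Fintype.card_pos
  have hr0 : (0 : ℝ) < r := by exact_mod_cast hr
  have hgs : star g = g := (IsSelfAdjoint.of_nonneg hg).star_eq
  let z : H × Fin n → B := fun q => x q.2 q.1
  have hz : ‖col z‖ ≤ 2 * N := by
    have e1 : col z = ∑ q, col fun j => x j q := by
      simp only [col, z, Fintype.sum_prod_type]
    rw [e1]
    calc _ ≤ ∑ _q : H, (2 : ℝ) :=
          norm_sum_le_of_le _ fun q _ => (hx.norm_col q).trans (by linarith)
      _ = _ := by simp only [Finset.sum_const, Finset.card_univ, nsmul_eq_mul]; ring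
  let G : H → H → B := fun s q => ∑ j, star (x j s) * x j q
  let D : H → H → B := fun s q => if s = q then g else 0
  have k1 := pair_bd (mul_nonneg hc hr0.le) hy
  have k2 := pair_bd (z := z) (c := r * (n * ε)) (by positivity) ((Bd.sum fun i => Bd.tensor
    (E := fun j j' => y i j j' + psi x (W i) j j') (sf_conj (h1 i)) (Bd.of_entries (he i))).mono
    (C' := (r * (n * ε)) ^ 2) (by simp only [Fintype.card_fin]; exact le_of_eq (by ring)) z)
  have k3 : ∑ p : H × Fin n, star (z p) * ∑ q : H × Fin n, (∑ i, star (W i p.1 q.1) •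
      psi x (W i) p.2 q.2) * z q = ∑ i, ∑ p, ∑ q, ∑ s, ∑ t,
        (star (W i p q) * W i s t) • (G p s * G t q) := by
    have a1 : ∀ i j q, ∑ j', psi x (W i) j j' * x j' q = ∑ t, ∑ s, W i s t • (x j s * G t q) :=
      fun i j q => by
        simp only [psi, G, Finset.sum_mul, Finset.mul_sum, Finset.smul_sum, smul_mul_assoc,
          mul_assoc]
        rw [Finset.sum_comm]
        exact Finset.sum_congr rfl fun t _ => Finset.sum_comm
    have a2 : ∀ i p q, ∑ j, star (x j p) * ∑ t, ∑ s, W i s t • (x j s * G t q) =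
        ∑ s, ∑ t, W i s t • (G p s * G t q) := fun i p q => by
      rw [Finset.sum_comm (f := fun s t => W i s t • (G p s * G t q))]
      simp only [show ∀ s, G p s = ∑ j, star (x j p) * x j s from fun _ => rfl, Finset.sum_mul,
        Finset.mul_sum, Finset.smul_sum, mul_smul_comm, mul_assoc]
      rw [Finset.sum_comm]
      exact Finset.sum_congr rfl fun t _ => Finset.sum_comm
    have a3 : ∀ p j, ∑ q : H × Fin n, (∑ i, star (W i p q.1) • psi x (W i) j q.2) * z q =
        ∑ i, ∑ q, star (W i p q) • ∑ j', psi x (W i) j j' * x j' q := fun p j => by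
      simp only [z, Fintype.sum_prod_type, Finset.sum_mul, Finset.smul_sum, smul_mul_assoc]
      rw [Finset.sum_congr rfl fun _ _ => Finset.sum_comm, Finset.sum_comm]
    simp only [mul_smul, ← Finset.smul_sum, ← a2, a3, a1]
    have a4 : ∀ F : Fin r → Fin n → H → B, ∑ p : H × Fin n, star (z p) * ∑ i, ∑ q,
        star (W i p.1 q) • F i p.2 q = ∑ i, ∑ p, ∑ q, star (W i p q) • ∑ j, star (x j p) * F i j q :=
      fun F => by
        simp only [z, Fintype.sum_prod_type, Finset.smul_sum, Finset.mul_sum, mul_smul_comm]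
        rw [Finset.sum_congr rfl fun _ _ => Finset.sum_comm, Finset.sum_comm]
        exact Finset.sum_congr rfl fun i _ => Finset.sum_congr rfl fun p _ => Finset.sum_comm
    exact a4 fun i j q => ∑ t, ∑ s, W i s t • (x j s * G t q)
  have k4 : ∑ i, ∑ p, ∑ q, ∑ s, ∑ t, (star (W i p q) * W i s t) • (D p s * D t q) =
      (∑ i, ∑ p, ∑ q, ‖W i p q‖ ^ 2 : ℝ) • (g * g) := by
    simp only [D, ite_mul, mul_ite, zero_mul, mul_zero, smul_ite, smul_zero, Finset.sum_ite_eq',
      Finset.sum_ite_eq, Finset.mem_univ, if_true, Finset.sum_smul, Complex.star_def,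
      Complex.conj_mul', ← Complex.ofReal_pow, Complex.coe_smul]
  have hD : ∀ s q, ‖D s q‖ ≤ 1 := fun s q => by
    simp only [D]
    split_ifs
    exacts [hg1, norm_zero.trans_le zero_le_one]
  have k5 : ‖∑ i, ∑ p, ∑ q, ∑ s, ∑ t, (star (W i p q) * W i s t) • (G p s * G t q - D p s * D t q)‖
      ≤ r * (N * (N * (N * (N * (3 * b))))) := by
    calc _ ≤ ∑ _i : Fin r, ∑ _p : H, ∑ _q : H, ∑ _s : H, ∑ _t : H, 3 * b := by
          refine norm_sum_le_of_le _ fun i _ => norm_sum_le_of_le _ fun p _ => norm_sum_le_of_le _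
            fun q _ => norm_sum_le_of_le _ fun s _ => norm_sum_le_of_le _ fun t _ => ?_
          have a1 : ‖G p s - D p s‖ ≤ b := hx p s
          have a2 : ‖G t q - D t q‖ ≤ b := hx t q
          have a3 : ‖G t q‖ ≤ 2 := by linarith [norm_sub_norm_le (G t q) (D t q), hD t q]
          rw [norm_smul, norm_mul, norm_star, show G p s * G t q - D p s * D t q =
            (G p s - D p s) * G t q + D p s * (G t q - D t q) by
              simp only [sub_mul, mul_sub, sub_add_sub_cancel]]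
          refine (mul_le_of_le_one_left (norm_nonneg _) (mul_le_one₀ ((h1 i).norm_le_one _ _)
            (norm_nonneg _) ((h1 i).norm_le_one _ _))).trans ((norm_add_le _ _).trans ?_)
          linarith [(norm_mul_le _ _).trans (mul_le_mul a1 a3 (norm_nonneg _) hb),
            (norm_mul_le _ _).trans (mul_le_mul (hD p s) a2 (norm_nonneg _) zero_le_one)]
      _ = _ := by simp only [Finset.sum_const, Finset.card_univ, nsmul_eq_mul, Fintype.card_fin, hN]
  simp only [smul_sub, Finset.sum_sub_distrib] at k5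
  rw [k4, ← k3] at k5
  simp only [smul_add, Finset.sum_add_distrib, add_mul, mul_add] at k2
  have k6 := norm_sub_le_of_le k2 k1
  rw [add_sub_cancel_left] at k6
  have k7 := norm_sub_le_of_le k6 k5
  rw [sub_sub_cancel, norm_smul, Real.norm_of_nonneg (by positivity)] at k7
  have k8 : ‖g * g‖ = ‖g‖ ^ 2 := by rw [sq, ← CStarRing.norm_star_mul_self, hgs]
  rw [k8] at k7
  have k9 := mul_le_mul_of_nonneg_right h2 (sq_nonneg ‖g‖)
  have k10 := mul_le_mul_of_nonneg_left hz (show 0 ≤ r * (n * ε) + c * r by positivity)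
  refine le_of_mul_le_mul_left ?_ (mul_pos hr0 hN0)
  nlinarith

theorem small2 {n r : ℕ} (hr : 1 ≤ r) {H : Type} [Fintype H] [DecidableEq H]
    [Nonempty H] {W : Fin r → H → H → ℂ} (hW : ∀ i p q, star (W i p q) = W i q p)
    (h1 : ∀ i, SF (W i) 1) {δ : ℝ} (h2 : δ * r * Fintype.card H ≤ ∑ i, ∑ p, ∑ q, ‖W i p q‖ ^ 2)
    {V : Option (Fin r) × Fin n → B} {e : B} {β : ℝ}
    (hV : ∀ p q, ‖star (V p) * V q - (if p = q then e else 0)‖ ≤ β) (hes : star e = e)
    (he : ‖e‖ ≤ 1) (hβ : 0 ≤ β) (hβ1 : β ≤ 1) {x : Fin n → H → B} {g : B} (hg : 0 ≤ g)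
    (hg1 : ‖g‖ ≤ 1) {b : ℝ} (hb : 0 ≤ b) (hb1 : b ≤ 1) (hb2 : (Fintype.card H : ℝ) ^ 2 * b ≤ 1)
    (hx : Orth x g b) (hex : ∀ j p, e * x j p = x j p) {h : B} {c ε l η L : ℝ} (hc : 0 ≤ c)
    (hε0 : 0 ≤ ε) (hy : col (fun p : H × Fin n => ∑ q : H × Fin n,
      (∑ i, star (W i p.1 q.1) • (star (V (some i, p.2)) * h * V (some i, q.2) -
        star (V (none, p.2)) * h * V (none, q.2))) * x q.2 q.1) ≤
          ((c * r) ^ 2) • col fun q : H × Fin n => x q.2 q.1)
    (hl : |l| ≤ L) (hs : ∀ p, ‖(h + pert2 V x W) * V p - l • V p‖ ≤ η)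
    (hε : 4 * η + 2 * L * β + 2 * (r * (n * (n * (6 * β)))) ≤ ε) :
    δ * ‖g‖ ^ 2 ≤ 2 * c + 2 * n * ε + 3 * (Fintype.card H : ℝ) ^ 3 * b :=
  core2 hr h1 h2 hg hg1 hb hb1 hx (y := fun i j j' => star (V (some i, j)) * h * V (some i, j') -
    star (V (none, j)) * h * V (none, j')) hc hε0 hy fun i j j' =>
    (compress_scalar hV he hβ hβ1 (Φ := fun i j j' => psi x (W i) j j')
      (fun i j j' => (norm_psi_le hx hg hb (hW i) (h1 i) j j').trans (by linarith))
      (fun i j j' => unit_psi hes hex _ j j') hl hs i j j').trans hε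

end Vale.Agent.N133X
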