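import Mathlib.Analysis.CStarAlgebra.CompletelyPositiveMap
import Mathlib.Analysis.SpecialFunctions.Exp
import Mathlib.Topology.Algebra.StarSubalgebra

/-! P133: pure infiniteness, nuclear maps, matrix models of finite tuples. -/

namespace Vale.Agent.N133X

open scoped CStarAlgebra ComplexOrder
open Filter Topology

universe u v

section

variable (C : Type u) (B : Type v) [NonUnitalCStarAlgebra C] [NonUnitalCStarAlgebra B]

/-- families of linear maps `E i j : C → B` -/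
abbrev Fam := ℕ → ℕ → C →ₗ[ℂ] B

/-- `B` is a quotient of `C`. -/
def Onto : Prop := ∃ q : C →⋆ₙₐ[ℂ] B, Function.Surjective q

/-- `C` and `B` are *-isomorphic. -/
def Iso : Prop := Nonempty (C ≃⋆ₐ[ℂ] B)

variable {C B}

/-- `B` is `C ⊗ 𝒦` with `E i j a = a ⊗ e_ij`: the closure of the union of the `M_n(C)`. -/
structure IsStab (E : Fam C B) : Prop where
  mul : ∀ i j k l a b, E i j a * E k l b = if j = k then E i l (a * b) else 0
  adj : ∀ i j a, star (E i j a) = E j i (star a)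
  inj : Function.Injective (E 0 0)
  dense : Dense (Submodule.span ℂ {x | ∃ i j a, x = E i j a} : Set B)

/-- Cuntz comparison `x ≾ y`. -/
def Cuntz (x y : B) : Prop :=
  ∃ r : ℕ → B, Tendsto (fun j => ‖star (r j) * y * r j - x‖) atTop (𝓝 0)

variable [PartialOrder C]

/-- For every `h ≥ 0` the element `H = diag (h, …, h)` (`n` times) satisfies `H ⊕ H ≾ H`. -/
def AmpInf (E : Fam C B) (n : ℕ) : Prop :=
  ∀ h : C, 0 ≤ h → Cuntz (∑ i ∈ Finset.range (n + n), E i i h) (∑ i ∈ Finset.range n, E i i h)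

/-- weakly purely infinite -/
def WPI (E : Fam C B) : Prop := ∃ n, 1 ≤ n ∧ AmpInf E n

end

/-- strongly purely infinite -/
def SPI (C : Type u) [NonUnitalCStarAlgebra C] [PartialOrder C] : Prop :=
  ∀ x y : C, 0 ≤ x → 0 ≤ y → ∀ ε : ℝ, 0 < ε → ∃ s t : C,
    ‖star s * (x * x) * s - x * x‖ < ε ∧ ‖star t * (y * y) * t - y * y‖ < ε ∧
      ‖star s * (x * y) * t‖ < ε

/-- `M_N(A)` with its C*-norm -/
abbrev Mat (N : ℕ) (A : Type u) : Type u := CStarMatrix (Fin N) (Fin N) A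

/-- `O` is the Cuntz algebra `O_∞`. -/
def IsOInfty (O : Type u) [CStarAlgebra O] : Prop :=
  Nontrivial O ∧ ∃ s : ℕ → O, (∀ i j, star (s i) * s j = if i = j then 1 else 0) ∧
    (StarAlgebra.adjoin ℂ (Set.range s)).topologicalClosure = ⊤

/-- `D` is a C*-completion of the algebraic tensor product of `C` and `O`, with `T a z = a ⊗ z`. -/
def IsTensor (C O D : Type u) [NonUnitalCStarAlgebra C] [CStarAlgebra O]
    [NonUnitalCStarAlgebra D] : Prop :=
  ∃ T : C →ₗ[ℂ] O →ₗ[ℂ] D, (∀ a a' z z', T (a * a') (z * z') = T a z * T a' z') ∧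
    (∀ a z, T (star a) (star z) = star (T a z)) ∧
    Function.Injective (TensorProduct.lift T) ∧ DenseRange (TensorProduct.lift T)

variable {A : Type u} [NonUnitalCStarAlgebra A] [PartialOrder A] [StarOrderedRing A]

/-- `θ` is a point-norm limit of compositions `A → M_K → B` of completely positive contractions. -/
def IsNuc {B : Type v} [NonUnitalCStarAlgebra B] [PartialOrder B] [StarOrderedRing B]
    (θ : A → B) : Prop :=
  ∀ (F : Finset A) (ε : ℝ), 0 < ε → ∃ (K : ℕ) (φ : A →CP Mat K ℂ) (ψ : Mat K ℂ →CP B),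
    (∀ a, ‖φ a‖ ≤ ‖a‖) ∧ (∀ x, ‖ψ x‖ ≤ ‖x‖) ∧ ∀ a ∈ F, ‖ψ (φ a) - θ a‖ < ε

/-- self-adjoint contractions -/
def SaC {d N : ℕ} (y : Fin d → Mat N A) : Prop := ∀ i, IsSelfAdjoint (y i) ∧ ‖y i‖ ≤ 1

/-- the norm of `∑ m i ⊗ a i` in `M_N(A)` -/
noncomputable def tn {d N : ℕ} (m : Fin d → Mat N ℂ) (a : Fin d → A) : ℝ :=
  ‖CStarMatrix.ofMatrix (Matrix.of fun p q => ∑ i, m i p q • a i)‖

variable (A)

/-- `A` has an injective nuclear *-homomorphism into `B`. -/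
def NucEmb (B : Type v) [NonUnitalCStarAlgebra B] [PartialOrder B] [StarOrderedRing B] : Prop :=
  ∃ ι : A →⋆ₙₐ[ℂ] B, Function.Injective ι ∧ IsNuc ι

/-- Any `d` contractions of `A` are dominated, for coefficients of one size `N ≥ d`, by matrices of
norm at most `κ` and size at most `exp (l N)`. -/
def Dom (κ : ℝ) (d : ℕ) (l : ℝ) : Prop :=
  ∀ a : Fin d → A, (∀ i, ‖a i‖ ≤ 1) → ∃ N K : ℕ, d ≤ N ∧ K ≤ Real.exp (l * N) ∧
    ∃ b : Fin d → Mat K ℂ, (∀ i, ‖b i‖ ≤ κ) ∧ ∀ m : Fin d → Mat N ℂ, tn m a ≤ tn m b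

/-- `A` is subexponential (Pisier). -/
def SubExp : Prop :=
  ∃ κ : ℝ, ∀ (d : ℕ) (a : Fin d → A) (ε : ℝ), 0 < ε → ∀ᶠ N : ℕ in atTop, ∃ K : ℕ,
    K ≤ Real.exp (ε * N) ∧ ∃ b : Fin d → Mat K ℂ,
      ∀ m : Fin d → Mat N ℂ, tn m a ≤ tn m b ∧ tn m b ≤ κ * tn m a

end Vale.Agent.N133X
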