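import Vale.Agent.N133X.Core
import Vale.Agent.N133.Main

/-! Weakly purely infinite C*-algebras with small tensor sums are purely infinite. -/

open scoped ComplexOrder

namespace Vale.Agent.N133X

open Vale.Agent.P133 Vale.Agent.P133.Statement Vale.Agent.P133.H832 Vale.Agent.P133F
  Vale.Agent.P133.H681 Vale.Agent.P133.R2.H28 Vale.Agent.P133Z

universe u

/-- the estimate for `r` self-adjoint `n × n` matrices over `A` -/
def SmallW (A : Type*) [NonUnitalCStarAlgebra A] [PartialOrder A] (n r : ℕ) (δ K : ℝ) : Prop :=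
  ∀ (y : Fin r → Fin n → Fin n → A) (M : ℝ), 0 < M →
    (∀ i j j', star (y i j j') = y i j' j) → (∀ i j j', ‖y i j j'‖ ≤ M) →
    ∃ (H : Type) (_ : Fintype H) (_ : DecidableEq H) (_ : Nonempty H) (W : Fin r → H → H → ℂ),
      (∀ i p q, star (W i p q) = W i q p) ∧ (∀ i, SF (W i) 1) ∧
      δ * r * Fintype.card H ≤ ∑ i, ∑ p, ∑ q, ‖W i p q‖ ^ 2 ∧
      Bd (fun (p q : H × Fin n) => ∑ i, star (W i p.1 q.1) • y i p.2 q.2) ((K * r * M) ^ 2)

theorem SmallW.mono {A : Type*} [NonUnitalCStarAlgebra A] [PartialOrder A] [StarOrderedRing A]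
    {n r : ℕ} {δ K K' : ℝ} (h : SmallW A n r δ K) (h0 : 0 ≤ K) (hK : K ≤ K') :
    SmallW A n r δ K' := by
  intro y M hM hys hy
  obtain ⟨H, i1, i2, i3, W, h1, h2, h3, h4⟩ := h y M hM hys hy
  exact ⟨H, i1, i2, i3, W, h1, h2, h3, h4.mono (by gcongr)⟩

theorem param2 (n : ℕ) {t : ℝ} (ht : 0 < t) :
    ∃ ε : ℝ, 0 < ε ∧ ε ≤ 1 ∧ 2 * n * ε ≤ t ∧ ∀ (r : ℕ) (L : ℝ), 0 ≤ L →
      ∃ β : ℝ, 0 < β ∧ β ≤ 1 / 4 ∧ ((r : ℝ) * n) ^ 2 * β ≤ 1 ∧
        4 * (ε / 8) + 2 * L * β + 2 * (r * (n * (n * (6 * β)))) ≤ ε := by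
  have hn : (0 : ℝ) ≤ n := Nat.cast_nonneg n
  obtain ⟨ε, hε⟩ : ∃ ε : ℝ, ε = min 1 (t / (2 * (n + 1))) := ⟨_, rfl⟩
  have hε0 : 0 < ε := by rw [hε]; exact lt_min one_pos (by positivity)
  have k5 : ε * (2 * (n + 1)) ≤ t := (le_div_iff₀ (by positivity)).1 (hε ▸ min_le_right _ _)
  refine ⟨ε, hε0, hε ▸ min_le_left _ _, by nlinarith, fun r L hL => ?_⟩
  have hr0 : (0 : ℝ) ≤ r := Nat.cast_nonneg r
  obtain ⟨β, hβ⟩ : ∃ β : ℝ,
    β = min (1 / (((r : ℝ) * n) ^ 2 + 4)) (ε / (2 * (2 * L + 12 * r * n ^ 2 + 1))) := ⟨_, rfl⟩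
  have hβ0 : 0 < β := by rw [hβ]; exact lt_min (by positivity) (by positivity)
  have hβ1 : (((r : ℝ) * n) ^ 2 + 4) * β ≤ 1 := by
    have : β ≤ 1 / (((r : ℝ) * n) ^ 2 + 4) := by rw [hβ]; exact min_le_left _ _
    rwa [le_div_iff₀ (by positivity), mul_comm] at this
  have hβ2 : β * (2 * (2 * L + 12 * r * n ^ 2 + 1)) ≤ ε := by
    have : β ≤ ε / (2 * (2 * L + 12 * r * n ^ 2 + 1)) := by rw [hβ]; exact min_le_right _ _
    rwa [le_div_iff₀ (by positivity)] at this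
  have hβ3 : 0 ≤ ((r : ℝ) * n) ^ 2 * β := by positivity
  exact ⟨β, hβ0, by linarith, by linarith, by linarith⟩

theorem param3 {t δ : ℝ} (ht : 0 < t) (ht1 : t ≤ 1 / 2) (hδ : 0 < δ) (hδ1 : δ ≤ 1) {N : ℝ}
    (hN : 1 ≤ N) : ∃ b : ℝ, 0 < b ∧ b ≤ t ∧ N ^ 2 * b ≤ t ∧ 3 * N ^ 3 * b ≤ δ * t ^ 2 / 3 := by
  obtain ⟨b, hb⟩ : ∃ b : ℝ, b = δ * t ^ 2 / (9 * N ^ 3) := ⟨_, rfl⟩
  have hb0 : 0 < b := by rw [hb]; positivity
  have hb1 : 3 * N ^ 3 * b = δ * t ^ 2 / 3 := by rw [hb]; field_simp; norm_num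
  have h1 : δ * t ^ 2 ≤ t := by nlinarith
  have h2 : N ^ 2 * b ≤ N ^ 3 * b := by gcongr; omega
  have h3 : 1 * b ≤ N ^ 2 * b := by gcongr; exact one_le_pow₀ hN
  exact ⟨b, hb0, by linarith, by linarith, hb1.le⟩

/-- one perturbation step, with constants which do not depend on the algebra -/
theorem perturb2 (n : ℕ) {δ : ℝ} (hδ : 0 < δ) (hδ1 : δ ≤ 1) {θ : ℝ} (hθ : 0 < θ) {R : ℝ} (hR : 0 ≤ R) :
    ∃ K η : ℝ, 0 < K ∧ 0 < η ∧ ∀ (A : Type u) [NonUnitalCStarAlgebra A] [PartialOrder A]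
      [StarOrderedRing A] (r : ℕ), 1 ≤ r → SmallW A n r δ K → P133F.WPI A n →
      ∀ a c : A, 0 ≤ a → InfB a c → ∀ s : ℝ, 0 < s → ∀ h : A, star h = h → ‖h‖ ≤ R →
      ∃ k : A, star k = k ∧ k ∈ R2.H474.her a ∧ ‖k‖ ≤ 4 * n ∧
        ∀ (B : Type u) [NonUnitalCStarAlgebra B] [PartialOrder B] [StarOrderedRing B]
          (π : A →⋆ₙₐ[ℂ] B) (l : ℝ), Sc π a (h + k) l η → ‖π k‖ ≤ θ ∧ ‖π c‖ ≤ s := by
  obtain ⟨t, ht0, ht1, ht2⟩ := param_one n hθ
  obtain ⟨ε, hε0, hε1, hεt, hβ⟩ := param2 n (show 0 < δ * t ^ 2 / 3 by positivity)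
  refine ⟨δ * t ^ 2 / (6 * (8 * R + 1)), ε / 16, by positivity, by positivity, ?_⟩
  intro A _ _ _ r hr1 hS hA a c ha hc s hs h hh hhR
  have hr0 : (0 : ℝ) < r := by exact_mod_cast hr1
  obtain ⟨w, u, hus, he1, heu, hu1, hu⟩ := exists_cuts hc.1 hs
  set e : A := star w * c * w with he
  have he0 : 0 ≤ e := star_left_conjugate_nonneg hc.1 w
  have hes : star e = e := (IsSelfAdjoint.of_nonneg he0).star_eq
  have hg0 : 0 ≤ u * u := by
    have := star_mul_self_nonneg u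
    rwa [hus] at this
  have hg1 : ‖u * u‖ ≤ 1 := (norm_mul_le _ _).trans (mul_le_one₀ hu1 (norm_nonneg _) hu1)
  obtain ⟨β, hβ0, hβ4, hβ3, hβ2⟩ := hβ r (‖h‖ + 4 * n + 4) (by positivity)
  obtain ⟨V, hVa, hV⟩ := exists_orth ha hc w (Option (Fin r) × Fin n) hβ0
  have hV2 := norm_le_two_of hV he1 (by linarith)
  have hyn : ∀ p q, ‖star (V p) * h * V q‖ ≤ 4 * ‖h‖ := by
    intro p q
    calc _ ≤ 2 * ‖h‖ * 2 := by
          refine (norm_mul_le _ _).trans (mul_le_mul ((norm_mul_le _ _).trans ?_) (hV2 q)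
            (norm_nonneg _) (by positivity))
          rw [norm_star]
          exact mul_le_mul_of_nonneg_right (hV2 p) (norm_nonneg _)
      _ = _ := by ring
  obtain ⟨H, i1, i2, i3, τ, hτ, hf, hf2, hbd⟩ := hS (fun i j j' =>
    star (V (some i, j)) * h * V (some i, j') - star (V (none, j)) * h * V (none, j'))
    (8 * R + 1) (by positivity)
    (fun i j j' => by simp only [star_sub, star_mul, star_star, hh, mul_assoc])
    (fun i j j' => (norm_sub_le _ _).trans (by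
      have := hyn (some i, j) (some i, j')
      have := hyn (none, j) (none, j')
      linarith))
  obtain ⟨b, hb0, hb3, hb2, hb1⟩ := param3 ht0 ht1 hδ hδ1 (N := (Fintype.card H : ℝ))
    (by exact_mod_cast Fintype.card_pos)
  rw [show δ * t ^ 2 / (6 * (8 * R + 1)) * r * (8 * R + 1) = δ * t ^ 2 / 6 * r by
    field_simp] at hbd
  obtain ⟨z, hz⟩ := exists_cols hA hus H hb0
  set x : Fin n → H → A := fun j p => u * z j p with hx
  have hex : ∀ j p, e * x j p = x j p := fun j p => by simp only [hx, ← mul_assoc, heu]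
  have hk : ‖pert2 V x τ‖ ≤ 4 * n := by
    refine (norm_pert2_le hV he0 he1 hβ0.le hβ3 hz hg0 hb0.le hτ hf).trans ?_
    calc _ ≤ (n : ℝ) * 2 * 2 := by gcongr; linarith
      _ = _ := by ring
  refine ⟨pert2 V x τ, star_pert2 V x hτ, ?_, hk, fun B _ _ _ π l hSc => ?_⟩
  · exact Submodule.sum_mem _ fun i _ => Submodule.sum_mem _ fun j _ => Submodule.sum_mem _
      fun j' _ => mul_star_mem_her (IsSelfAdjoint.of_nonneg ha).star_eq
        (RI.mul (hVa _) _) (hVa _)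
  have hπV : ∀ p q, ‖star (π (V p)) * π (V q) - (if p = q then π e else 0)‖ ≤ β := by
    intro p q
    refine le_trans (le_of_eq ?_) ((NonUnitalStarAlgHom.norm_apply_le π _).trans (hV p q))
    congr 1
    simp only [map_sub, map_mul, map_star, apply_ite π, map_zero, he]
  have hπe1 : ‖π e‖ ≤ 1 := (NonUnitalStarAlgHom.norm_apply_le π _).trans he1
  have hπg1 : ‖π (u * u)‖ ≤ 1 := (NonUnitalStarAlgHom.norm_apply_le π _).trans hg1
  have hπg0 : 0 ≤ π (u * u) := map_nonneg π hg0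
  have hπz := hz.map π
  have hπx : ∀ j p, π e * π (x j p) = π (x j p) := fun j p => by rw [← map_mul, hex]
  have hSc' : ∀ p, ‖π (h + pert2 V x τ) * π (V p) - l • π (V p)‖ ≤ ε / 8 := fun p =>
    (hSc _ (hVa p)).trans ((mul_le_mul_of_nonneg_left (hV2 p) (by positivity)).trans
      (le_of_eq (by ring)))
  have hg : ‖π (u * u)‖ ≤ t := by
    by_cases hl : |l| ≤ ‖h‖ + 4 * n + 4
    · have k1 := small2 (B := B) hr1 hτ hf hf2 hπV (by rw [← map_star, hes]) hπe1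
        hβ0.le (by linarith) hπg0 hπg1 hb0.le (by linarith) (by linarith) hπz hπx (h := π h)
        (c := δ * t ^ 2 / 6) (by positivity) hε0.le
        (by simpa only [map_sum, map_smul, map_sub, map_mul, map_star] using
          hbd.map_col_le π fun q => x q.2 q.1) hl
        (fun p => by simpa only [map_add, map_pert2] using hSc' p) hβ2
      exact le_of_pow_le_pow_left₀ two_ne_zero ht0.le (le_of_mul_le_mul_left (by linarith) hδ)
    · refine (small_of_large hπV hβ4 hπz hπx (h := π (h + pert2 V x τ)) ?_ (not_le.1 hl)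
        fun p => (hSc' p).trans (by linarith)).trans hb3
      have k3 : ‖π (h + pert2 V x τ)‖ ≤ ‖h‖ + 4 * n :=
        (NonUnitalStarAlgHom.norm_apply_le π _).trans
          ((norm_add_le _ _).trans (add_le_add le_rfl hk))
      linarith
  refine ⟨?_, hu B π ?_⟩
  · rw [map_pert2]
    refine (norm_pert2_le hπV (map_nonneg π he0) hπe1 hβ0.le hβ3 hπz hπg0 hb0.le hτ hf).trans
      (le_trans ?_ ht2)
    gcongr
  · have k1 : ‖π (u * u)‖ = ‖π u‖ * ‖π u‖ := by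
      rw [← CStarRing.norm_star_mul_self, ← map_star, hus, map_mul]
    by_contra k2
    have k3 := mul_le_mul (not_lt.1 k2) (not_lt.1 k2) zero_le_one (norm_nonneg _)
    linarith

theorem nowhere2 (n m : ℕ) {δ : ℝ} (hδ : 0 < δ) (hδ1 : δ ≤ 1) :
    ∃ K η : ℝ, 0 < K ∧ 0 < η ∧ ∀ (A : Type u) [NonUnitalCStarAlgebra A] [PartialOrder A]
      [StarOrderedRing A] (r : ℕ), 1 ≤ r → SmallW A n r δ K → P133F.WPI A n →
      ∀ (a : A) (c : Fin m → A), 0 ≤ a → (∀ t, InfB a (c t)) → ∀ s : ℝ, 0 < s →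
      ∃ h : A, star h = h ∧ h ∈ R2.H474.her a ∧ ‖h‖ ≤ m * (4 * n) ∧
        ∀ (B : Type u) [NonUnitalCStarAlgebra B] [PartialOrder B] [StarOrderedRing B]
          (π : A →⋆ₙₐ[ℂ] B) (l : ℝ), Sc π a h l η → ∀ t, ‖π (c t)‖ ≤ s := by
  induction m with
  | zero =>
    exact ⟨1, 1, one_pos, one_pos, fun A _ _ _ r _ _ _ a c _ _ s _ =>
      ⟨0, star_zero _, Submodule.zero_mem _, by simp, fun _ _ _ _ _ _ _ t => t.elim0⟩⟩
  | succ m ih =>
    obtain ⟨K, η, hK, hη, ih⟩ := ih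
    obtain ⟨K', η', hK', hη', hp⟩ := perturb2.{u} n hδ hδ1 (half_pos hη) (R := m * (4 * n))
      (by positivity)
    refine ⟨min K K', min η' (η / 2), lt_min hK hK', lt_min hη' (half_pos hη), ?_⟩
    intro A _ _ _ r hr hS hA a c ha hc s hs
    obtain ⟨h, h1, h2, hn, h3⟩ := ih A r hr (hS.mono (lt_min hK hK').le (min_le_left _ _)) hA a
      (fun t => c t.succ) ha (fun t => hc _) s hs
    obtain ⟨k, k1, k2, kn, k3⟩ := hp A r hr (hS.mono (lt_min hK hK').le (min_le_right _ _)) hA a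
      (c 0) ha (hc 0) s hs h h1 hn
    refine ⟨h + k, by rw [star_add, h1, k1], Submodule.add_mem _ h2 k2, ?_,
      fun B _ _ _ π l hSc => ?_⟩
    · refine (norm_add_le _ _).trans ?_
      push_cast
      linarith
    obtain ⟨k4, k5⟩ := k3 B π l fun x hx =>
      (hSc x hx).trans (mul_le_mul_of_nonneg_right (min_le_left _ _) (norm_nonneg _))
    have k6 : Sc π a h l η := by
      intro x hx
      have e1 : π h * π x - l • π x = (π (h + k) * π x - l • π x) - π k * π x := by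
        rw [map_add, add_mul]; abel
      have e2 : ‖π k * π x‖ ≤ η / 2 * ‖x‖ := (norm_mul_le _ _).trans
        (mul_le_mul k4 (NonUnitalStarAlgHom.norm_apply_le π _) (norm_nonneg _) (half_pos hη).le)
      have e3 := (hSc x hx).trans
        (mul_le_mul_of_nonneg_right (min_le_right _ _) (norm_nonneg _))
      rw [e1]
      exact (norm_sub_le _ _).trans (by linarith)
    intro t
    exact Fin.cases k5 (h3 B π l k6) t

theorem twoOrth2 (n : ℕ) {γ : ℝ} (hγ : 0 < γ) (hγ1 : γ ≤ 1) :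
    ∃ K : ℝ, 0 < K ∧ ∀ (A : Type u) [NonUnitalCStarAlgebra A] [PartialOrder A]
      [StarOrderedRing A] (r : ℕ), 1 ≤ r → SmallW A n r γ K → P133F.WPI A n → TwoOrth A := by
  obtain ⟨T, hT⟩ := colours.{u} n
  obtain ⟨K, η, hK, hη, hs0⟩ := nowhere2.{u} n T hγ hγ1
  refine ⟨K, hK, fun A _ _ _ r hr hS hA => twoOrth_iff.2 fun a ha δ hδ => ?_⟩
  obtain ⟨c, hc0, hc, hI⟩ := hT A hA a ha _ (half_pos hδ)
  obtain ⟨s, hs, hs'⟩ := normMod_inId hI (half_pos hδ)
  obtain ⟨d, d1, d2, -, d3⟩ := hs0 A r hr hS hA a c ha (fun t => infB_of_allBelow (hc0 t) (hc t))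
    (s / (T + 1)) (by positivity)
  refine ⟨d, d1, d2, fun P hP hcut l hl => hcut ?_⟩
  have h0 : NormMod (P : Set A) (∑ t, c t) s := by
    intro B i1 π hk
    let _ := CStarAlgebra.spectralOrder B
    have _ := CStarAlgebra.spectralOrderedRing B
    have h1 : π d * π a = l • π a := by
      have h2 := hk _ hl
      rwa [map_sub, map_mul, map_rsmul, sub_eq_zero] at h2
    have h2 : Sc π a d l η := by
      intro x hx
      have h3 : IsClosed {x : A | π d * π x - l • π x = 0} :=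
        isClosed_eq (by have := map_continuous π; fun_prop) continuous_const
      have h4 : π d * π x - l • π x = 0 := by
        refine closure_minimal ?_ h3 hx
        rintro _ ⟨w, rfl⟩
        show π d * π (a * w) - l • π (a * w) = 0
        rw [map_mul, ← mul_assoc, h1, smul_mul_assoc, sub_self]
      rw [h4, norm_zero]
      positivity
    rw [map_sum]
    calc _ ≤ ∑ _t : Fin T, s / (T + 1) :=
          norm_sum_le_of_le _ fun t _ => d3 B π l h2 t
      _ = s * (T / (T + 1)) := by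
          simp only [Finset.sum_const, Finset.card_univ, Fintype.card_fin, nsmul_eq_mul]; ring
      _ ≤ s := mul_le_of_le_one_right hs.le (by rw [div_le_one (by positivity)]; linarith)
  have h1 := normMod_of_cut ha (half_pos hδ) (hs' _ h0)
  obtain ⟨B, i1, i2, i3, π, -, hk⟩ := hP.quot
  refine cut_mem_of_norm ha hδ π hk ?_
  have h2 := h1 B i1 π fun x hx => (hk x).2 hx
  linarith

theorem pi_of_smallW {n : ℕ} (hn : 1 ≤ n) {δ : ℝ} (hδ : 0 < δ) :
    ∃ K : ℝ, 0 < K ∧ ∀ (A : Type u) [NonUnitalCStarAlgebra A] [PartialOrder A]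
      [StarOrderedRing A], (∀ h : A, 0 ≤ h → ProperlyInfiniteMat (diagN n h)) →
      ∀ r : ℕ, 1 ≤ r → SmallW A n r δ K → PurelyInfinite A := by
  obtain ⟨K, hK, h⟩ := twoOrth2.{u} n (lt_min hδ one_pos) (min_le_right _ _)
  refine ⟨K, hK, fun A _ _ _ hA r hr hS => pi_of_twoOrth (N133.wpi_of_diag hn hA)
    (h A r hr (fun y M a b c => ?_) (N133.wpi_of_diag hn hA))⟩
  obtain ⟨H, i1, i2, i3, W, h1, h2, h3, h4⟩ := hS y M a b c
  exact ⟨H, i1, i2, i3, W, h1, h2, le_trans (by gcongr; exact min_le_left _ _) h3, h4⟩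

end Vale.Agent.N133X
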