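import Vale.Agent.P133Z.TSmall
import Mathlib.MeasureTheory.Covering.BesicovitchVectorSpace
import Mathlib.Analysis.SpecialFunctions.Trigonometric.Series
import Mathlib.Algebra.GroupWithZero.Units.Fintype

/-! Random signs: nets, exponential moments and the comparison of trace moments. -/

namespace Vale.Agent.N133X

open Vale.Agent.P133Z Matrix Finset
open scoped Matrix.Norms.L2Operator MatrixOrder Kronecker ComplexOrder InnerProductSpace

theorem exists_net (E : Type*) [NormedAddCommGroup E] [NormedSpace ℝ E] [FiniteDimensional ℝ E] :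
    ∃ s : Finset E, s.card ≤ 5 ^ Module.finrank ℝ E ∧ (∀ c ∈ s, ‖c‖ ≤ 2) ∧
      ∀ v, ‖v‖ ≤ 2 → ∃ c ∈ s, ‖v - c‖ ≤ 1 := by
  classical
  let P : ℕ → Prop := fun k => ∃ s : Finset E, s.card = k ∧ (∀ c ∈ s, ‖c‖ ≤ 2) ∧
    ∀ c ∈ s, ∀ d ∈ s, c ≠ d → 1 ≤ ‖c - d‖
  obtain ⟨s, h0, h1, h2⟩ : P (Nat.findGreatest P (5 ^ Module.finrank ℝ E)) :=
    Nat.findGreatest_spec (Nat.zero_le _) ⟨∅, rfl, by simp, by simp⟩
  refine ⟨s, Besicovitch.card_le_of_separated s h1 h2, h1, fun v hv => ?_⟩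
  by_contra! h
  have a : v ∉ s := fun a => by simpa using (h v a).trans' zero_lt_one
  have b1 : ∀ c ∈ insert v s, ‖c‖ ≤ 2 := forall_mem_insert _ _ _ |>.2 ⟨hv, h1⟩
  have b2 : ∀ c ∈ insert v s, ∀ d ∈ insert v s, c ≠ d → 1 ≤ ‖c - d‖ := by
    simp only [forall_mem_insert]
    exact ⟨⟨fun e => absurd rfl e, fun d e _ => (h d e).le⟩, fun c e =>
      ⟨fun _ => norm_sub_rev c v ▸ (h c e).le, h2 c e⟩⟩
  have := Nat.le_findGreatest (P := P) (Besicovitch.card_le_of_separated _ b1 b2) ⟨_, rfl, b1, b2⟩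
  rw [card_insert_of_notMem a] at this
  omega

theorem net_le {E : Type*} [NormedAddCommGroup E] [InnerProductSpace ℂ E] {s : Finset E}
    (h : ∀ v, ‖v‖ ≤ 2 → ∃ c ∈ s, ‖v - c‖ ≤ 1) (T : E →L[ℂ] E) :
    ∃ x ∈ s, ∃ y ∈ s, ‖T‖ ≤ (⟪x, T y⟫_ℂ).re := by
  have k : ∀ w : E, ∃ c ∈ s, ‖((2 / ‖w‖ : ℝ) : ℂ) • w - c‖ ≤ 1 := fun w => h _ (by
    rw [norm_smul, Complex.norm_real, Real.norm_of_nonneg (by positivity)]
    by_cases e : ‖w‖ = 0
    · simp [e]
    · exact (div_mul_cancel₀ _ e).le)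
  obtain ⟨y, hy, a⟩ := s.exists_max_image (fun c => ‖T c‖) ((k 0).imp fun _ h => h.1)
  obtain ⟨x, hx, b⟩ := k (T y)
  refine ⟨x, hx, y, hy, le_trans (b := ‖T y‖) ?_ ?_⟩
  · have : ‖T‖ ≤ (‖T y‖ + ‖T‖) / 2 := T.opNorm_le_bound' (by positivity) fun w e => by
      obtain ⟨c, hc, d⟩ := k w
      have e1 := norm_sub_norm_le (T (((2 / ‖w‖ : ℝ) : ℂ) • w)) (T c)
      rw [← map_sub, map_smul, norm_smul, Complex.norm_real, Real.norm_of_nonneg (by positivity),
        div_mul_eq_mul_div, sub_le_iff_le_add, div_le_iff₀ (by positivity)] at e1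
      have e2 := (T.le_opNorm _).trans (mul_le_of_le_one_right (norm_nonneg T) d)
      nlinarith [a c hc, norm_nonneg w]
    linarith
  · by_cases e : T y = 0
    · simp [e]
    have e0 := norm_pos_iff.2 e
    have e1 := (Complex.re_le_norm _).trans ((norm_inner_le_norm (𝕜 := ℂ) _ (T y)).trans
      (mul_le_of_le_one_left (norm_nonneg _) b))
    rw [inner_sub_left, inner_smul_left, inner_self_eq_norm_sq_to_K, Complex.conj_ofReal] at e1
    have e2 : (((2 / ‖T y‖ : ℝ) : ℂ) * ((‖T y‖ : ℝ) : ℂ) ^ 2).re = 2 * ‖T y‖ := by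
      norm_cast
      field_simp
    rw [Complex.sub_re] at e1
    erw [e2] at e1
    linarith

variable {I : Type} [Fintype I] [DecidableEq I]

/-- the signs -/
def sg (ω : I → ℤˣ) (e : I) : ℝ := ((ω e : ℤ) : ℝ)

theorem mgf (c : I → ℝ) : ∑ ω : I → ℤˣ, Real.exp (∑ e, sg ω e * c e) ≤
    Fintype.card (I → ℤˣ) * Real.exp ((∑ e, c e ^ 2) / 2) := by
  simp only [Real.exp_sum, sum_div, sg]
  rw [← Fintype.piFinset_univ, ← prod_univ_sum (fun _ => univ)
    fun e (u : ℤˣ) => Real.exp (((u : ℤ) : ℝ) * c e), Fintype.card_fun, Nat.cast_pow,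
    ← card_univ (α := I), ← prod_const, ← prod_mul_distrib]
  refine prod_le_prod (fun _ _ => by positivity) fun e _ => ?_
  have := Real.cosh_le_exp_half_sq (c e)
  rw [Real.cosh_eq] at this
  rw [UnitsInt.univ, sum_pair (by decide), show Fintype.card ℤˣ = 2 from rfl]
  simp only [Units.val_one, Units.val_neg, Int.cast_one, Int.cast_neg, one_mul, neg_mul]
  push_cast
  linarith

section

variable {Ω n k : Type} [Fintype Ω] [Group Ω] [Fintype n] [DecidableEq n] [Fintype k]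
  [DecidableEq k] {M M' : ℝ} {F F' : Ω → Matrix (n × k) (n × k) ℂ} {G G' : Ω → Matrix n n ℂ}

/-- `G` dominates `F` term by term -/
def Dm (M : ℝ) (F : Ω → Matrix (n × k) (n × k) ℂ) (G : Ω → Matrix n n ℂ) : Prop :=
  ∃ (ι : Type) (_ : Fintype ι) (c : ι → Ω → ℝ) (A : ι → Matrix n n ℂ) (b : ι → Matrix k k ℂ),
    (∀ t u v, c t (u * v) = c t u * c t v) ∧ (∀ t p q, 0 ≤ A t p q) ∧ (∀ t, ‖b t‖ ≤ M) ∧
      (∀ ω, F ω = ∑ t, c t ω • (A t ⊗ₖ b t)) ∧ ∀ ω, G ω = ∑ t, c t ω • A t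

omit [Fintype Ω] [DecidableEq n] in
theorem Dm.mul (h : Dm M F G) (h' : Dm M' F' G') :
    Dm (M * M') (fun ω => F ω * F' ω) fun ω => G ω * G' ω := by
  obtain ⟨ι, _, c, A, b, h1, h2, h3, h4, h5⟩ := h
  obtain ⟨ι', _, c', A', b', k1, k2, k3, k4, k5⟩ := h'
  refine ⟨ι × ι', inferInstance, fun t ω => c t.1 ω * c' t.2 ω, fun t => A t.1 * A' t.2,
    fun t => b t.1 * b' t.2, fun t u v => ?_, fun t p q => sum_nonneg fun _ _ =>
      mul_nonneg (h2 _ _ _) (k2 _ _ _), fun t => (norm_mul_le _ _).trans (mul_le_mul (h3 _) (k3 _)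
        (norm_nonneg _) ((norm_nonneg _).trans (h3 t.1))), fun ω => ?_, fun ω => ?_⟩
  · simp only [h1, k1]; ring
  · simp only [h4, k4, sum_mul_sum, Fintype.sum_prod_type, smul_mul_smul_comm, mul_kronecker_mul]
  · simp only [h5, k5, sum_mul_sum, Fintype.sum_prod_type, smul_mul_smul_comm]

omit [Fintype Ω] [DecidableEq n] [Fintype n] in
theorem Dm.star (h : Dm M F G) : Dm M (fun ω => (F ω)ᴴ) fun ω => (G ω)ᴴ := by
  obtain ⟨ι, _, c, A, b, h1, h2, h3, h4, h5⟩ := h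
  refine ⟨ι, inferInstance, c, fun t => (A t)ᴴ, fun t => (b t)ᴴ, h1, fun t p q =>
    star_nonneg_iff.2 (h2 t q p), fun t => (l2_opNorm_conjTranspose _).trans_le (h3 t),
    fun ω => ?_, fun ω => ?_⟩
  · simp only [h4, conjTranspose_sum, conjTranspose_smul, star_trivial, conjTranspose_kronecker]
  · simp only [h5, conjTranspose_sum, conjTranspose_smul, star_trivial]

omit [Fintype Ω] in
theorem Dm.pow (h : Dm M F G) (m : ℕ) :
    Dm (M ^ (m + 1)) (fun ω => F ω ^ (m + 1)) fun ω => G ω ^ (m + 1) := by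
  induction m with
  | zero => simpa only [zero_add, pow_one] using h
  | succ m ih => simpa only [pow_succ _ (m + 1)] using ih.mul h

theorem norm_trace_le (b : Matrix k k ℂ) : ‖b.trace‖ ≤ Fintype.card k * ‖b‖ := by
  refine (norm_sum_le_of_le _ (n := fun _ => ‖b‖) fun p _ => ?_).trans (by simp)
  have := (PiLp.norm_apply_le _ p).trans (l2_opNorm_mulVec b (EuclideanSpace.single p 1))
  simpa using this

omit [DecidableEq n] in
theorem Dm.trace (h : Dm M F G) :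
    ∑ ω, (F ω).trace.re ≤ Fintype.card k * M * ∑ ω, (G ω).trace.re := by
  obtain ⟨ι, _, c, A, b, h1, h2, h3, h4, h5⟩ := h
  simp only [h4, h5, trace_sum, trace_smul, trace_kronecker, Complex.re_sum, Complex.smul_re,
    smul_eq_mul]
  rw [sum_comm, sum_comm (f := fun ω t => c t ω * _), mul_sum]
  refine sum_le_sum fun t _ => ?_
  have e : 0 ≤ ∑ ω, c t ω := by
    have : (∑ ω, c t ω) * ∑ ω, c t ω = Fintype.card Ω * ∑ ω, c t ω := by
      rw [sum_mul_sum]
      simp only [← h1, fun u => show ∑ v, c t (u * v) = ∑ v, c t v from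
        Equiv.sum_comp (Equiv.mulLeft u) (c t), sum_const, card_univ, nsmul_eq_mul]
    exact nonneg_of_mul_nonneg_right (this ▸ mul_self_nonneg _) (Nat.cast_pos.2 Fintype.card_pos)
  have e1 : 0 ≤ (A t).trace := sum_nonneg fun p _ => h2 t p p
  rw [← sum_mul, ← sum_mul, mul_left_comm]
  refine mul_le_mul_of_nonneg_left ((Complex.re_le_norm _).trans ?_) e
  rw [norm_mul, ← Complex.re_eq_norm.2 e1, mul_comm]
  exact mul_le_mul_of_nonneg_right ((norm_trace_le _).trans (by gcongr; exact h3 t))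
    (Complex.nonneg_iff.1 e1).1

theorem sq_le_trace (Y : Matrix k k ℂ) : ‖Y‖ ^ 2 ≤ (Yᴴ * Y).trace.re := by
  have e : (Yᴴ * Y).trace.re = ∑ p, ∑ q, ‖Y p q‖ ^ 2 := by
    rw [sum_comm]
    simp only [Matrix.trace, diag_apply, mul_apply, conjTranspose_apply, Complex.star_def,
      Complex.conj_mul', Complex.re_sum, ← Complex.ofReal_pow, Complex.ofReal_re]
  have e0 : 0 ≤ ∑ p, ∑ q, ‖Y p q‖ ^ 2 := by positivity
  rw [e, ← Real.sq_sqrt e0]
  refine pow_le_pow_left₀ (norm_nonneg _) (norm_le_of_bd (Real.sqrt_nonneg _) fun z => ?_) 2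
  rw [Real.sq_sqrt e0, sum_smul]
  refine sum_le_sum fun p _ => ?_
  have := cs (fun q => star (Y p q)) z
  rw [col_complex, Complex.norm_real, Real.norm_of_nonneg (by positivity)] at this
  simpa only [star_star, norm_star] using this

theorem pow_le_trace (S : Matrix k k ℂ) (m : ℕ) :
    ‖S‖ ^ (4 * (m + 1)) ≤ ((Sᴴ * S) ^ (2 * m + 1 + 1)).trace.re := by
  have a : IsSelfAdjoint (Sᴴ * S) := IsSelfAdjoint.star_mul_self S
  have b : ‖Sᴴ * S‖ ^ (m + 1) ≤ ‖(Sᴴ * S) ^ (m + 1)‖ := by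
    obtain ⟨j, e⟩ := Nat.exists_eq_add_of_lt (Nat.lt_two_pow_self (n := m + 1))
    have c := a.norm_pow_two_pow (m + 1)
    rw [e, add_assoc (m + 1), pow_add _ (m + 1), pow_add _ (m + 1)] at c
    rcases (norm_nonneg (Sᴴ * S)).eq_or_lt with h | h
    · rw [← h, zero_pow m.succ_ne_zero]; exact norm_nonneg _
    · exact le_of_mul_le_mul_right (c.symm.trans_le ((norm_mul_le _ _).trans
        (mul_le_mul_of_nonneg_left (norm_pow_le' _ j.succ_pos) (norm_nonneg _)))) (pow_pos h _)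
  have c := sq_le_trace ((Sᴴ * S) ^ (m + 1))
  rw [show ((Sᴴ * S) ^ (m + 1))ᴴ = _ from (a.pow _).star_eq, ← pow_add] at c
  rw [show 2 * m + 1 + 1 = m + 1 + (m + 1) by ring]
  refine le_trans ?_ ((pow_le_pow_left₀ (by positivity) b 2).trans c)
  rw [l2_opNorm_conjTranspose_mul_self]
  exact le_of_eq (by ring)

theorem mom_le {A : I → Matrix n n ℂ} {σ s : ℝ} (hs : 0 < s)
    (hσ : ∀ x y : EuclideanSpace ℂ n, ‖x‖ ≤ 2 → ‖y‖ ≤ 2 →
      ∑ e, (⟪x, toEuclideanCLM (n := n) (𝕜 := ℂ) (A e) y⟫_ℂ).re ^ 2 ≤ σ) (j : ℕ) :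
    ∑ ω : I → ℤˣ, ‖∑ e, sg ω e • A e‖ ^ j ≤ Fintype.card (I → ℤˣ) *
      (625 ^ Fintype.card n * Real.exp (s ^ 2 * σ / 2) * (j / s) ^ j) := by
  obtain ⟨t, t1, t2, t3⟩ := exists_net (EuclideanSpace ℂ n)
  have t4 : (t.card : ℝ) ≤ 25 ^ Fintype.card n := by
    rw [finrank_real_of_complex, finrank_euclideanSpace, pow_mul] at t1
    exact_mod_cast t1
  let c := fun (x y : EuclideanSpace ℂ n) e =>
    s * (⟪x, toEuclideanCLM (n := n) (𝕜 := ℂ) (A e) y⟫_ℂ).re
  calc _ ≤ ∑ ω : I → ℤˣ, (j / s) ^ j * ∑ x ∈ t, ∑ y ∈ t, Real.exp (∑ e, sg ω e * c x y e) := by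
        refine sum_le_sum fun ω _ => ?_
        obtain ⟨x, hx, y, hy, h⟩ := net_le t3 (toEuclideanCLM (n := n) (𝕜 := ℂ) (∑ e, sg ω e • A e))
        rw [l2_opNorm_toEuclideanCLM] at h
        have e1 : s * ‖∑ e, sg ω e • A e‖ ≤ ∑ e, sg ω e * c x y e := by
          refine (mul_le_mul_of_nonneg_left h hs.le).trans_eq ?_
          simp only [c, map_sum, ← Complex.coe_smul, map_smul, _root_.sum_apply, _root_.smul_apply,
            inner_sum, inner_smul_right, Complex.re_sum, Complex.re_ofReal_mul, mul_sum,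
            mul_left_comm s]
        have e2 := Real.pow_div_factorial_le_exp _ (mul_nonneg hs.le (norm_nonneg
          (∑ e, sg ω e • A e))) j
        rw [div_le_iff₀ (by positivity), mul_pow] at e2
        have e3 : Real.exp (s * ‖∑ e, sg ω e • A e‖) ≤
            ∑ x ∈ t, ∑ y ∈ t, Real.exp (∑ e, sg ω e * c x y e) :=
          (Real.exp_le_exp.2 e1).trans ((single_le_sum (f := fun y => Real.exp
            (∑ e, sg ω e * c x y e)) (fun _ _ => by positivity) hy).trans (single_le_sum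
            (f := fun x => ∑ y ∈ t, Real.exp (∑ e, sg ω e * c x y e))
            (fun _ _ => by positivity) hx))
        rw [div_pow, div_mul_eq_mul_div, le_div_iff₀ (by positivity), mul_comm]
        refine e2.trans ((mul_le_mul e3 (Nat.cast_le.2 j.factorial_le_pow) (by positivity)
          (by positivity)).trans_eq ?_)
        rw [Nat.cast_pow, mul_comm]
    _ = (j / s) ^ j * ∑ x ∈ t, ∑ y ∈ t, ∑ ω : I → ℤˣ, Real.exp (∑ e, sg ω e * c x y e) := by
        rw [← mul_sum, sum_comm, sum_congr rfl fun _ _ => sum_comm]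
    _ ≤ (j / s) ^ j * ∑ _x ∈ t, ∑ _y ∈ t, Fintype.card (I → ℤˣ) * Real.exp (s ^ 2 * σ / 2) := by
        gcongr with x hx y hy
        refine (mgf _).trans ?_
        simp only [c, mul_pow, ← mul_sum]
        gcongr
        exact hσ x y (t2 x hx) (t2 y hy)
    _ ≤ _ := by
        simp only [sum_const, nsmul_eq_mul]
        rw [show (625 : ℝ) = 25 * 25 by norm_num, mul_pow]
        calc _ ≤ (j / s) ^ j * (25 ^ Fintype.card n * (25 ^ Fintype.card n *
              (Fintype.card (I → ℤˣ) * Real.exp (s ^ 2 * σ / 2)))) := by gcongr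
          _ = _ := by ring

theorem tail {A : I → Matrix n n ℂ} (hA : ∀ e p q, 0 ≤ A e p q) {σ s κ u : ℝ} (hs : 0 < s)
    (hκ : 0 < κ) (hσ : ∀ x y : EuclideanSpace ℂ n, ‖x‖ ≤ 2 → ‖y‖ ≤ 2 →
      ∑ e, (⟪x, toEuclideanCLM (n := n) (𝕜 := ℂ) (A e) y⟫_ℂ).re ^ 2 ≤ σ)
    {b : I → Matrix k k ℂ} (hb : ∀ e, ‖b e‖ ≤ κ) (hu : 4 ≤ s * u / (Real.exp 1 * κ)) :
    (#{ω : I → ℤˣ | u ≤ ‖∑ e, sg ω e • (A e ⊗ₖ b e)‖} : ℝ) ≤ Fintype.card (I → ℤˣ) *
      (Fintype.card k * Fintype.card n * 625 ^ Fintype.card n *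
        Real.exp (s ^ 2 * σ / 2 + 4 - s * u / (Real.exp 1 * κ))) := by
  set a := s * u / (Real.exp 1 * κ) with ha
  obtain ⟨m, hm⟩ := Nat.exists_eq_add_one_of_ne_zero (Nat.floor_pos.2
    (show 1 ≤ a / 4 by linarith)).ne'
  have m1 : ((4 * (m + 1) : ℕ) : ℝ) ≤ a := by
    have := Nat.floor_le (show 0 ≤ a / 4 by linarith)
    rw [hm] at this
    push_cast at this ⊢
    linarith
  have m2 : a ≤ (4 * (m + 1) : ℕ) + 4 := by
    have := Nat.lt_floor_add_one (a / 4)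
    rw [hm] at this
    push_cast at this ⊢
    linarith
  have hu0 : 0 < u := (mul_pos_iff_of_pos_left hs).1 ((div_pos_iff_of_pos_right
    (by positivity)).1 (show 0 < s * u / (Real.exp 1 * κ) by linarith))
  have d : Dm κ (fun ω : I → ℤˣ => ∑ e, sg ω e • (A e ⊗ₖ b e)) fun ω => ∑ e, sg ω e • A e :=
    ⟨I, inferInstance, fun e ω => sg ω e, A, b, fun e u v => by simp [sg], hA, hb, fun _ => rfl,
      fun _ => rfl⟩
  have e1 := ((d.star.mul d).pow (2 * m + 1)).trace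
  have e2 : ∑ ω : I → ℤˣ, (((∑ e, sg ω e • A e)ᴴ * ∑ e, sg ω e • A e) ^ (2 * m + 1 + 1)).trace.re ≤
      Fintype.card n * ∑ ω : I → ℤˣ, ‖∑ e, sg ω e • A e‖ ^ (4 * (m + 1)) := by
    rw [mul_sum]
    refine sum_le_sum fun ω _ => (Complex.re_le_norm _).trans ((norm_trace_le _).trans ?_)
    gcongr
    refine (norm_pow_le' _ (n := 2 * m + 1 + 1) (Nat.succ_pos _)).trans_eq ?_
    rw [l2_opNorm_conjTranspose_mul_self]
    ring
  have e3 := card_nsmul_le_sum {ω : I → ℤˣ | u ≤ ‖∑ e, sg ω e • (A e ⊗ₖ b e)‖}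
    (fun ω => ‖∑ e, sg ω e • (A e ⊗ₖ b e)‖ ^ (4 * (m + 1))) (u ^ (4 * (m + 1))) fun ω h =>
      pow_le_pow_left₀ hu0.le (mem_filter.1 h).2 _
  have e4 := (e3.trans (sum_le_sum_of_subset_of_nonneg (subset_univ _)
    fun _ _ _ => by positivity)).trans ((sum_le_sum fun ω _ => pow_le_trace _ m).trans (e1.trans
      (mul_le_mul_of_nonneg_left (e2.trans (mul_le_mul_of_nonneg_left (mom_le hs hσ _)
        (by positivity))) (by positivity))))
  generalize hj : 4 * (m + 1) = j at *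
  have e5 : (κ * (j / s)) ^ j ≤ (u * Real.exp (-1)) ^ j := by
    refine pow_le_pow_left₀ (by positivity) ?_ _
    rw [ha, le_div_iff₀ (by positivity)] at m1
    rw [Real.exp_neg, ← div_eq_mul_inv, ← mul_div_assoc, div_le_div_iff₀ hs (by positivity)]
    linarith
  rw [mul_pow u, ← Real.exp_nat_mul] at e5
  have e6 : Real.exp (j * -1) ≤ Real.exp (4 - a) := Real.exp_le_exp.2 (by linarith)
  rw [nsmul_eq_mul, show (κ * κ) ^ (2 * m + 1 + 1) = κ ^ j by rw [← hj]; ring] at e4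
  refine le_of_mul_le_mul_right (e4.trans ?_) (pow_pos hu0 j)
  rw [add_sub_assoc, Real.exp_add]
  calc _ = Fintype.card (I → ℤˣ) * (Fintype.card k * Fintype.card n * 625 ^ Fintype.card n *
        Real.exp (s ^ 2 * σ / 2)) * (κ * (j / s)) ^ j := by ring
    _ ≤ Fintype.card (I → ℤˣ) * (Fintype.card k * Fintype.card n * 625 ^ Fintype.card n *
        Real.exp (s ^ 2 * σ / 2)) * (u ^ j * Real.exp (4 - a)) := by
      gcongr
      exact e5.trans (by gcongr)
    _ = _ := by ring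

end

end Vale.Agent.N133X
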