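import Vale.Agent.N133X.Mom
import Mathlib.Analysis.Complex.ExponentialBounds

/-! Symmetric random sign matrices. -/

namespace Vale.Agent.N133X

open Vale.Agent.P133Z Matrix Finset
open scoped Matrix.Norms.L2Operator MatrixOrder Kronecker ComplexOrder InnerProductSpace

variable {N : ℕ}

/-- the symmetric matrix units -/
def un (p q : Fin N) : Matrix (Fin N) (Fin N) ℂ :=
  of fun s t => if min s t = p ∧ max s t = q then 1 else 0

theorem un_le (x y : EuclideanSpace ℂ (Fin N)) (hx : ‖x‖ ≤ 2) (hy : ‖y‖ ≤ 2) :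
    ∑ p, ∑ q, (⟪x, toEuclideanCLM (n := Fin N) (𝕜 := ℂ) (un p q) y⟫_ℂ).re ^ 2 ≤ 64 := by
  have a : ∀ p q, |(⟪x, toEuclideanCLM (n := Fin N) (𝕜 := ℂ) (un p q) y⟫_ℂ).re| ≤
      ‖x p‖ * ‖y q‖ + ‖x q‖ * ‖y p‖ := fun p q => by
    refine (Complex.abs_re_le_norm _).trans ?_
    simp only [PiLp.inner_apply, ofLp_toEuclideanCLM, mulVec, dotProduct, un, of_apply,
      RCLike.inner_apply, sum_mul]
    calc _ ≤ ∑ s, ∑ t, ((if t = q then if s = p then ‖x s‖ * ‖y t‖ else 0 else 0) +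
          if t = p then if s = q then ‖x s‖ * ‖y t‖ else 0 else 0) := by
          refine norm_sum_le_of_le _ fun s _ => norm_sum_le_of_le _ fun t _ => ?_
          by_cases h : min s t = p ∧ max s t = q
          · obtain ⟨rfl, rfl⟩ := h
            simp only [and_self, if_true, one_mul, norm_mul, RCLike.norm_conj, mul_comm ‖y t‖]
            rcases le_total s t with e | e
            · simp only [min_eq_left e, max_eq_right e, if_true]
              exact le_add_of_nonneg_right (by positivity)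
            · simp only [min_eq_right e, max_eq_left e, if_true]
              exact le_add_of_nonneg_left (by positivity)
          · simp only [h, if_false, zero_mul, norm_zero]
            positivity
      _ = _ := by simp only [sum_add_distrib, sum_ite_eq', mem_univ, if_true]
  calc _ ≤ ∑ p, ∑ q, (2 * (‖x p‖ ^ 2 * ‖y q‖ ^ 2) + 2 * (‖y p‖ ^ 2 * ‖x q‖ ^ 2)) :=
        sum_le_sum fun p _ => sum_le_sum fun q _ => (sq_le_sq' (abs_le.1 (a p q)).1
          (abs_le.1 (a p q)).2).trans (by nlinarith [sq_nonneg (‖x p‖ * ‖y q‖ - ‖x q‖ * ‖y p‖)])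
    _ = 4 * (‖x‖ ^ 2 * ‖y‖ ^ 2) := by
        simp only [sum_add_distrib, ← mul_sum, ← sum_mul, ← EuclideanSpace.norm_sq_eq]
        ring
    _ ≤ 4 * (2 ^ 2 * 2 ^ 2) := by gcongr
    _ = _ := by norm_num

/-- the sign matrices -/
def sm {r : ℕ} (ω : Fin r × Fin N × Fin N → ℤˣ) (i : Fin r) : Matrix (Fin N) (Fin N) ℂ :=
  of fun s t => sg ω (i, min s t, max s t)

theorem tail_sm {r : ℕ} (P : Finset (Fin r)) {k : Type} [Fintype k] [DecidableEq k] {s κ u : ℝ}
    (hs : 0 < s) (hκ : 0 < κ) {b : Fin r → Matrix k k ℂ} (hb : ∀ e, ‖b e‖ ≤ κ)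
    (hu : 4 ≤ s * u / (Real.exp 1 * κ)) (hN : 1 ≤ N) :
    (#{ω : Fin r × Fin N × Fin N → ℤˣ | u ≤ ‖∑ i ∈ P, sm ω i ⊗ₖ b i‖} : ℝ) ≤
      Fintype.card (Fin r × Fin N × Fin N → ℤˣ) * (Fintype.card k *
        Real.exp (12 * N + 32 * s ^ 2 * #P - s * u / (Real.exp 1 * κ))) := by
  have := tail (A := fun e : Fin r × Fin N × Fin N => if e.1 ∈ P then un e.2.1 e.2.2 else 0)
    (σ := #P * 64) (b := fun e => b e.1) (fun e p q => by
      split_ifs
      · simp only [un, of_apply]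
        split_ifs
        exacts [zero_le_one, le_rfl]
      · exact le_rfl) hs hκ (fun x y hx hy => by
      simp only [Fintype.sum_prod_type]
      calc _ ≤ ∑ i, if i ∈ P then (64 : ℝ) else 0 := sum_le_sum fun i _ => by
            split_ifs
            · exact un_le x y hx hy
            · simp
        _ = _ := by simp) (fun e => hb e.1) hu
  have e : ∀ ω : Fin r × Fin N × Fin N → ℤˣ, ∑ e : Fin r × Fin N × Fin N, sg ω e •
      ((if e.1 ∈ P then un e.2.1 e.2.2 else 0) ⊗ₖ b e.1) = ∑ i ∈ P, sm ω i ⊗ₖ b i := fun ω => by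
    rw [Fintype.sum_prod_type, ← sum_ite_mem_eq P]
    refine sum_congr rfl fun i _ => ?_
    split_ifs
    · ext ⟨s, a⟩ ⟨t, c⟩
      simp [Matrix.sum_apply, un, sm, Fintype.sum_prod_type, ite_and]
    · simp
  simp only [e, Fintype.card_fin] at this
  refine this.trans ?_
  have h1 : (N : ℝ) ≤ Real.exp N := by linarith [Real.add_one_le_exp N]
  have h2 : (625 : ℝ) ^ N ≤ Real.exp (N * 7) := by
    rw [Real.exp_nat_mul]
    gcongr
    have := pow_le_pow_left₀ (by norm_num) Real.exp_one_gt_d9.le 7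
    rw [← Real.exp_nat_mul] at this
    norm_num at this ⊢
    linarith
  have h3 : (1 : ℝ) ≤ N := by exact_mod_cast hN
  rw [mul_assoc, mul_assoc]
  gcongr
  refine (mul_le_mul h1 (mul_le_mul_of_nonneg_right h2 (by positivity)) (by positivity)
    (by positivity)).trans ?_
  rw [← Real.exp_add, ← Real.exp_add]
  exact Real.exp_le_exp.2 (by linarith)

theorem rand (J : Type) [Fintype J] {κ γ : ℝ} (hκ : 0 < κ) (hγ : 0 < γ) :
    ∃ c > 0, ∃ r₀ : ℕ, ∀ r ≥ r₀, ∀ N ≥ r, 1 ≤ N → ∀ K : ℕ, K ≤ Real.exp (c * r * N) →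
      ∀ b : J → Fin r → Matrix (Fin K) (Fin K) ℂ, (∀ j i, ‖b j i‖ ≤ κ) →
      ∃ ω : Fin r × Fin N × Fin N → ℤˣ, (∀ i, SF (sm ω i) ((14 * Real.exp 1 * 4) ^ 2 * N)) ∧
        ∀ j, ‖∑ i, sm ω i ⊗ₖ b j i‖ ≤ γ * r * √N := by
  classical
  obtain ⟨θ, hθ⟩ : ∃ θ, θ = γ / (128 * (Real.exp 1 * κ)) := ⟨_, rfl⟩
  have θ0 : 0 < θ := by rw [hθ]; positivity
  have θ1 : θ * γ / (Real.exp 1 * κ) = 128 * θ ^ 2 := by rw [hθ]; field_simp
  obtain ⟨r₀, hr₀⟩ := exists_nat_ge ((12 + 2 * Fintype.card J) / (64 * θ ^ 2))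
  refine ⟨32 * θ ^ 2, by positivity, r₀, fun r hr N hN hN1 K hK b hb => ?_⟩
  rw [div_le_iff₀ (by positivity)] at hr₀
  have n1 : (1 : ℝ) ≤ N := by exact_mod_cast hN1
  have n2 : (r : ℝ) ≤ N := by exact_mod_cast hN
  have n3 : 12 + 2 * Fintype.card J ≤ r * (64 * θ ^ 2) := hr₀.trans (by gcongr)
  have n4 : √N * √N = N := Real.mul_self_sqrt (by positivity)
  have n5 : 0 < √N := by positivity
  have J0 : (0 : ℝ) ≤ Fintype.card J := by positivity
  set Z : ℝ := (Fintype.card (Fin r × Fin N × Fin N → ℤˣ) : ℝ) with hZ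
  have Z0 : 0 < Z := Nat.cast_pos.2 Fintype.card_pos
  have a := fun i : Fin r => tail_sm {i} (k := Unit) (b := fun _ => 1) (u := 14 * Real.exp 1 * 4 * √N)
    n5 one_pos (fun _ => norm_one.le) (by
      rw [le_div_iff₀ (by positivity)]; nlinarith [Real.exp_pos 1]) hN1
  have a' := fun j => tail_sm univ (b := b j) (u := γ * r * √N) (mul_pos θ0 n5) hκ (hb j) (by
    rw [show θ * √N * (γ * r * √N) / _ = θ * γ / (Real.exp 1 * κ) * r * (√N * √N) by ring, θ1, n4]
    nlinarith) hN1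
  simp only [card_singleton, Fintype.card_unique, Nat.cast_one] at a
  rw [show 12 * N + 32 * √N ^ 2 * 1 - √N * (14 * Real.exp 1 * 4 * √N) / (Real.exp 1 * 1) =
    12 * N - 24 * (√N * √N) by field_simp; ring, n4] at a
  rw [show θ * √N * (γ * r * √N) / _ = θ * γ / (Real.exp 1 * κ) * r * (√N * √N) by ring, θ1, n4,
    mul_pow, Real.sq_sqrt (by positivity), card_univ, Fintype.card_fin r, Fintype.card_fin K] at a'
  by_contra! h
  have e := card_le_card (s := univ) (t := (univ.biUnion fun i : Fin r =>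
    {ω | 14 * Real.exp 1 * 4 * √N ≤ ‖∑ i ∈ {i}, sm ω i ⊗ₖ (1 : Matrix Unit Unit ℂ)‖}) ∪
      univ.biUnion fun j => {ω | γ * r * √N ≤ ‖∑ i, sm ω i ⊗ₖ b j i‖}) fun ω _ => by
    by_contra c
    simp only [mem_union, mem_biUnion, mem_univ, mem_filter, true_and, not_or, not_exists, not_le,
      sum_singleton] at c
    obtain ⟨j, e⟩ := h ω fun i => by
      have := (sf_of_norm (pow_le_pow_left₀ (norm_nonneg _) (c.1 i).le 2)).reindex
        (Equiv.prodUnique _ _).symm (Equiv.prodUnique _ _).symm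
      rw [mul_pow _ √N, Real.sq_sqrt (by positivity)] at this
      simpa using this
    exact e.not_gt (c.2 j)
  have e1 : Z ≤ r * (Z * (1 * Real.exp (12 * N - 24 * N))) + Fintype.card J * (Z * (K *
      Real.exp (12 * N + 32 * (θ ^ 2 * N) * r - 128 * θ ^ 2 * r * N))) := by
    refine (Nat.cast_le.2 (e.trans ((card_union_le _ _).trans (add_le_add card_biUnion_le
      card_biUnion_le)))).trans ?_
    push_cast
    refine (add_le_add (sum_le_sum fun i _ => a i) (sum_le_sum fun j _ => a' j)).trans_eq ?_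
    simp [hZ]
  have e2 : r * Real.exp (12 * N - 24 * N) < 1 / 2 := by
    rw [show (12 * N - 24 * N : ℝ) = -(12 * N) by ring, Real.exp_neg, ← div_eq_mul_inv,
      div_lt_iff₀ (by positivity)]
    linarith [Real.add_one_le_exp (12 * N)]
  have e3 : Fintype.card J * (K * Real.exp (12 * N + 32 * (θ ^ 2 * N) * r - 128 * θ ^ 2 * r * N))
      ≤ 1 / 2 := by
    refine (mul_le_mul_of_nonneg_left (mul_le_mul_of_nonneg_right hK (by positivity)) J0).trans ?_
    rw [← Real.exp_add]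
    refine (mul_le_mul_of_nonneg_left (Real.exp_le_exp.2 (show _ ≤ -(2 * Fintype.card J : ℝ) by
      nlinarith)) J0).trans ?_
    rw [Real.exp_neg, ← div_eq_mul_inv, div_le_iff₀ (by positivity)]
    linarith [Real.add_one_le_exp (2 * Fintype.card J)]
  nlinarith

end Vale.Agent.N133X
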