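import Vale.Agent.N133X.Defs
import Vale.Agent.N133X.Main
import Vale.Agent.N133X.Rand

/-! Norms of matrices over a C*-algebra; the estimate for dominated tuples. -/

namespace Vale.Agent.N133X

open Vale.Agent.P133Z Finset Filter
open scoped ComplexOrder Kronecker Matrix.Norms.L2Operator

universe u

variable {A : Type u} [NonUnitalCStarAlgebra A] [PartialOrder A] [StarOrderedRing A]
  {I J : Type} [Fintype I] [Fintype J]

theorem bd_of_norm {X : CStarMatrix I I A} {c : ℝ} (h : ‖X‖ ≤ c) :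
    Bd (fun p q => X p q) (c ^ 2) := by
  intro z
  cases isEmpty_or_nonempty I with
  | inl _ => simp [col]
  | inr h0 =>
    obtain ⟨i⟩ := h0
    let Z : CStarMatrix I I A := CStarMatrix.ofMatrix fun p _ => z p
    obtain ⟨L, hL⟩ := exists_star_mul (sub_nonneg.2 ((sq_mul_le X Z).trans (rsmul_mono
      (star_mul_self_nonneg Z) (pow_le_pow_left₀ (norm_nonneg _) h 2))))
    have e := congrFun (congrFun hL i) i
    rw [← sub_nonneg]
    refine le_of_le_of_eq (col_nonneg fun p => L p i) e.symm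

theorem norm_of_bd {X : CStarMatrix I I A} {c : ℝ} (hc : 0 ≤ c)
    (h : Bd (fun p q => X p q) (c ^ 2)) : ‖X‖ ≤ c := by
  rw [← norm_star, CStarMatrix.norm_def]
  refine ContinuousLinearMap.opNorm_le_bound _ hc fun v => ?_
  have e := norm_mono (col_nonneg _) (h fun q => star (v q))
  refine (pow_le_pow_iff_left₀ (norm_nonneg _) (by positivity) two_ne_zero).1 ?_
  rw [mul_pow, CStarModule.norm_sq_eq A, CStarModule.norm_sq_eq A]
  rw [norm_smul, Real.norm_of_nonneg (sq_nonneg c)] at e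
  simpa [col, CStarMatrix.toCLM_apply_eq_sum, WithCStarModule.pi_inner, WithCStarModule.inner_def,
    CStarMatrix.star_apply, star_sum] using e

/-- block matrices -/
def flat : CStarMatrix I I (CStarMatrix J J A) →⋆ₙₐ[ℂ] CStarMatrix (I × J) (I × J) A where
  toFun X := CStarMatrix.ofMatrix fun p q => X p.1 q.1 p.2 q.2
  map_smul' _ _ := rfl
  map_zero' := rfl
  map_add' _ _ := rfl
  map_star' _ := rfl
  map_mul' X Y := by
    ext p q
    simp only [CStarMatrix.mul_apply, CStarMatrix.ofMatrix_apply, Fintype.sum_prod_type]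
    exact Matrix.sum_apply _ _ _ _

theorem norm_flat (X : CStarMatrix I I (CStarMatrix J J A)) : ‖flat X‖ = ‖X‖ :=
  NonUnitalStarAlgHom.norm_map flat (fun X Y h => by
    ext p q a b
    exact congrFun (congrFun h (p, a)) (q, b)) X

theorem norm_ofMatrix [DecidableEq I] (X : Matrix I I ℂ) : ‖CStarMatrix.ofMatrix X‖ = ‖X‖ :=
  StarAlgEquiv.norm_map (CStarMatrix.ofMatrixStarAlgEquiv (n := I) (A := ℂ)) X

variable {d N : ℕ}

omit [Fintype J] [PartialOrder A] [StarOrderedRing A] in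
theorem csum (f : I → CStarMatrix J J A) (p q : J) : (∑ i, f i) p q = ∑ i, f i p q :=
  Matrix.sum_apply _ _ _ _

theorem tn_nonneg (m : Fin d → Mat N ℂ) (a : Fin d → A) : 0 ≤ tn m a := norm_nonneg _

theorem tn_eq {K : ℕ} (m : Fin d → Matrix (Fin N) (Fin N) ℂ) (b : Fin d → Mat K ℂ) :
    tn (fun i => CStarMatrix.ofMatrix (m i)) b =
      ‖∑ i, m i ⊗ₖ (CStarMatrix.ofMatrix.symm (b i))‖ := by
  rw [tn, ← norm_flat, ← norm_ofMatrix]
  congr 1
  ext p q
  exact (csum (fun i => m i p.1 q.1 • b i) p.2 q.2).trans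
    (Matrix.sum_apply p q univ fun i => m i ⊗ₖ (CStarMatrix.ofMatrix.symm (b i))).symm

theorem tn_extend {r : ℕ} {f : Fin r → Fin d} (hf : Function.Injective f) (m : Fin r → Mat N ℂ)
    (a : Fin d → A) : tn (Function.extend f m 0) a = tn m fun i => a (f i) := by
  unfold tn
  congr 2
  ext p q
  exact (Fintype.sum_of_injective f hf _ _ (fun i hi => by
    rw [Function.extend_apply' _ _ _ hi]; exact zero_smul _ _) fun i => by
      rw [hf.extend_apply]).symm

theorem bd_nested {n : ℕ} {W : Fin d → Mat N ℂ} {y : Fin d → Mat n A} {c : ℝ} (h : tn W y ≤ c) :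
    Bd (fun p q : Fin N × Fin n => ∑ i, W i p.1 q.1 • y i p.2 q.2) (c ^ 2) := by
  have := bd_of_norm ((norm_flat _).trans_le h)
  convert this using 3 with p q
  exact (csum (fun i => W i p.1 q.1 • y i) _ _).symm

theorem Bd.smul {X : I → J → A} {C : ℝ} (h : Bd X C) (t : ℝ) :
    Bd (fun p q => t • X p q) (t ^ 2 * C) := fun z => by
  refine le_of_eq_of_le ?_ ((rsmul_le (sq_nonneg t) (h z)).trans_eq (smul_smul _ _ _))
  simp only [col, ← smul_sum, smul_mul_assoc, star_smul, mul_smul_comm, smul_smul, star_trivial, sq]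

theorem large_of_not {n r : ℕ} (hn : 1 ≤ n) {δ K : ℝ} (h : ¬ SmallW A n r δ K) :
    ∃ y : Fin r → Mat n A, (∀ i, IsSelfAdjoint (y i) ∧ ‖y i‖ ≤ 1) ∧ ∀ N, 1 ≤ N →
      ∀ W : Fin r → Mat N ℂ, (∀ i, IsSelfAdjoint (W i) ∧ ‖W i‖ ≤ 1) →
      δ * r * N ≤ ∑ i, ∑ p, ∑ q, ‖W i p q‖ ^ 2 → K / n * r ≤ tn W y := by
  by_contra! g
  refine h fun y M hM hs hy => ?_
  have n0 : (0 : ℝ) < n := by exact_mod_cast hn
  obtain ⟨N, hN, W, h1, h2, h3⟩ := g
    (fun i => CStarMatrix.ofMatrix (Matrix.of fun j j' => (n * M : ℝ)⁻¹ • y i j j')) fun i => ⟨by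
      ext j j'
      simp [CStarMatrix.star_apply, hs], norm_of_bd zero_le_one ((Bd.smul (Bd.of_entries (hy i))
        _).mono (by rw [Fintype.card_fin]; field_simp; rfl))⟩
  refine ⟨Fin N, inferInstance, inferInstance, ⟨⟨0, hN⟩⟩, fun i p q => star (W i p q),
    fun i p q => ?_, fun i => sf_conj ?_, by simpa using h2, ?_⟩
  · exact (star_star _).trans (CStarMatrix.star_apply_of_isSelfAdjoint (h1 i).1).symm
  · simpa using sf_of_cstarMatrix (h1 i).2
  · convert Bd.smul (bd_nested h3.le) (n * M) using 3 with p q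
    · simp only [star_star, CStarMatrix.ofMatrix_apply, Matrix.of_apply, smul_comm _ (n * M : ℝ)⁻¹,
        ← smul_sum, inv_smul_smul₀ (show (n * M : ℝ) ≠ 0 by positivity)]
    · field_simp

theorem smallW_of_dom {n : ℕ} (hn : 1 ≤ n) {κ K : ℝ} (hκ : 0 < κ) (hK : 0 < K) :
    ∃ c > 0, ∃ d₀ : ℕ, ∀ (A : Type u) [NonUnitalCStarAlgebra A] [PartialOrder A]
      [StarOrderedRing A], ∀ d ≥ d₀, Dom A κ d (c * d) →
      ∃ r, 1 ≤ r ∧ SmallW A n r ((14 * Real.exp 1 * 4) ^ 2)⁻¹ K := by
  classical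
  have n0 : (0 : ℝ) < n := by exact_mod_cast hn
  set t := 14 * Real.exp 1 * 4 with ht
  have t0 : 0 < t := by positivity
  obtain ⟨c, hc, r₀, h⟩ := rand (Fin n × Fin n) hκ (γ := K * t / n) (by positivity)
  refine ⟨c / (2 * n ^ 2), by positivity, (r₀ + 1) * (n * n), fun A _ _ _ d hd hD =>
    ⟨d / (n * n), ?_⟩⟩
  have r1 := (Nat.le_div_iff_mul_le (Nat.mul_pos hn hn)).2 hd
  have r2 := Nat.div_mul_le_self d (n * n)
  have r3 := (Nat.lt_div_mul_add (a := d) (Nat.mul_pos hn hn)).le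
  generalize d / (n * n) = r at *
  refine ⟨by omega, fun y M hM hs hy => ?_⟩
  obtain ⟨e⟩ : Nonempty (Fin r × Fin n × Fin n ↪ Fin d) :=
    Function.Embedding.nonempty_of_card_le (by simpa using r2)
  obtain ⟨N, L, hN, hL, b, hb, hm⟩ := hD
    (Function.extend e (fun x => M⁻¹ • y x.1 x.2.1 x.2.2) 0) fun i => by
      by_cases hi : ∃ x, e x = i
      · obtain ⟨x, rfl⟩ := hi
        rw [e.injective.extend_apply, norm_smul, Real.norm_of_nonneg (by positivity)]
        exact inv_mul_le_one_of_le₀ (hy _ _ _) hM.le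
      · rw [Function.extend_apply' _ _ _ hi]
        simp
  have r4 : r ≤ N := ((Nat.le_mul_of_pos_right r (Nat.mul_pos hn hn)).trans r2).trans hN
  have N1 : 1 ≤ N := by omega
  have N0 : 0 < √(N : ℝ) := by positivity
  obtain ⟨ω, h1, h2⟩ := h r (by omega) N r4 N1 L (hL.trans (Real.exp_le_exp.2 (by
      have e1 : (d : ℝ) ≤ r * (n * n) + n * n := by exact_mod_cast r3
      have e2 : (1 : ℝ) ≤ r := by exact_mod_cast (show 1 ≤ r by omega)
      rw [div_mul_eq_mul_div, mul_div_assoc]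
      gcongr
      rw [div_le_iff₀ (by positivity)]
      nlinarith)))
    (fun j i => CStarMatrix.ofMatrix.symm (b (e (i, j)))) fun j i =>
      (norm_ofMatrix _).symm.trans_le (hb _)
  have k0 : ∀ i p q, star (sm ω i p q) = sm ω i p q := fun i p q => Complex.conj_ofReal _
  have k1 : ((t * √N)⁻¹) ^ 2 * (t ^ 2 * N) = 1 := by
    rw [inv_pow, mul_pow, Real.sq_sqrt (by positivity)]
    exact inv_mul_cancel₀ (by positivity)
  refine ⟨Fin N, inferInstance, inferInstance, ⟨⟨0, N1⟩⟩, fun i p q => (t * √N)⁻¹ • sm ω i p q,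
    fun i p q => ?_, fun i => sf_of_bd zero_le_one (k1 ▸ Bd.smul (h1 i).bd _), ?_, ?_⟩
  · simp only [star_smul, star_trivial, k0]
    simp only [sm, Matrix.of_apply, min_comm p, max_comm p]
  · have k2 : ∀ i p q, ‖sm ω i p q‖ = 1 := fun i p q => by
      rcases Int.units_eq_one_or (ω (i, min p q, max p q)) with e | e <;> simp [sm, sg, e]
    simp only [norm_smul, k2, mul_one, sum_const, card_univ, Fintype.card_fin, nsmul_eq_mul,
      Real.norm_eq_abs, sq_abs, inv_pow, mul_pow, Real.sq_sqrt (Nat.cast_nonneg N)]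
    refine le_of_eq ?_
    field_simp
  · have k3 : ∀ j j' : Fin n, Bd (fun p q : Fin N => ∑ i, star ((t * √N)⁻¹ • sm ω i p q) • y i j j')
        ((K * r * M / n) ^ 2) := fun j j' => by
      have e1 : Function.Injective fun i => e (i, j, j') := fun i i' h =>
        congrArg Prod.fst (e.injective h)
      have e2 := hm (Function.extend (fun i => e (i, j, j'))
        (fun i => CStarMatrix.ofMatrix (sm ω i)) 0)
      rw [tn_extend e1, tn_extend e1, tn_eq] at e2
      convert Bd.smul (bd_of_norm (e2.trans (h2 (j, j')))) ((t * √N)⁻¹ * M) using 3 with p q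
      · simp only [star_smul, star_trivial, k0, e.injective.extend_apply, smul_assoc, ← smul_sum,
          CStarMatrix.ofMatrix_apply, Matrix.of_apply, smul_comm (_ : ℂ) M⁻¹, mul_smul,
          smul_inv_smul₀ hM.ne']
      · field_simp
    refine ((Bd.blocks k3).sub (e := Prod.swap) Prod.swap_injective (e' := Prod.swap)
      Prod.swap_injective).mono (le_of_eq ?_)
    rw [Fintype.card_fin]
    field_simp

theorem dom_of_subExp {D : Type*} [NonUnitalCStarAlgebra D] [PartialOrder D] [StarOrderedRing D]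
    (q : D →⋆ₙₐ[ℂ] A) (hq : Function.Surjective q) (h : SubExp D) :
    ∃ κ > 0, ∀ d l, 0 < l → Dom A κ d l := by
  obtain ⟨κ, h⟩ := h
  obtain ⟨L, L0, hL⟩ := ContinuousLinearMap.exists_preimage_norm_le
    (⟨(q : D →ₗ[ℂ] A), map_continuous q⟩ : D →L[ℂ] A) hq
  refine ⟨(|κ| + 1) * L, by positivity, fun d l hl a ha => ?_⟩
  choose x hx hx' using fun i => hL (a i)
  obtain ⟨N, ⟨⟨K, hK, b, hb⟩, hN⟩, N1⟩ := (((h d x l hl).and (eventually_ge_atTop d)).and
    (eventually_ge_atTop 1)).exists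
  refine ⟨N, K, hN, hK, b, fun i => ?_, fun m => le_trans ?_ (hb m).1⟩
  · have e : Function.Injective fun _ : Fin 1 => i := fun _ _ _ => Subsingleton.elim _ _
    have e1 := (hb (Function.extend (fun _ : Fin 1 => i) (fun _ => 1) 0)).2
    rw [tn_extend e, tn_extend e] at e1
    have e2 : tn (fun _ : Fin 1 => (1 : Mat N ℂ)) (fun _ => x i) ≤ L :=
      norm_of_bd L0.le fun z => by
        simp only [CStarMatrix.ofMatrix_apply, Matrix.of_apply, Fin.sum_univ_one, col,
          CStarMatrix.one_apply, ite_smul, one_smul, zero_smul, ite_mul, zero_mul, sum_ite_eq,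
          mem_univ, if_true, smul_sum]
        exact sum_le_sum fun p _ => (sq_mul_le _ _).trans (rsmul_mono (star_mul_self_nonneg _)
          (pow_le_pow_left₀ (norm_nonneg _) ((hx' i).trans (mul_le_of_le_one_right L0.le (ha i))) 2))
    refine le_trans (le_of_eq_of_le ?_ (CStarMatrix.norm_entry_le_norm (i := ⟨0, N1⟩)
      (j := ⟨0, N1⟩))) (e1.trans (mul_le_mul (by linarith [le_abs_self κ]) e2 (tn_nonneg _ _)
        (by positivity)))
    simp
  · refine le_of_eq_of_le ?_ (NonUnitalStarAlgHom.norm_apply_le (CStarMatrix.mapₙₐ q) _)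
    unfold tn
    congr 1
    ext p q
    simp [CStarMatrix.map, ← hx]
    rfl

end Vale.Agent.N133X
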