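import Vale.Agent.N133X.Univ
import Vale.Agent.P133K90.Main
import Vale.Agent.P133O.Top

/-! Comparison in `C ⊗ 𝒦` and comparison by finite matrices; the main statements. -/

namespace Vale.Agent.N133X

open Vale.Agent.P133.Statement Vale.Agent.P133F Vale.Agent.P133Z Finset Filter Topology
open scoped ComplexOrder

universe u v w

variable {C : Type u} {B : Type v} [NonUnitalCStarAlgebra C] [NonUnitalCStarAlgebra B]
  {E : Fam C B}

/-- the corner embedding -/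
def IsStab.hom (h : IsStab E) (n : ℕ) : Mat n C →⋆ₙₐ[ℂ] B where
  toFun M := ∑ i : Fin n, ∑ j : Fin n, E i j (M i j)
  map_smul' c M := by simp [smul_sum]
  map_zero' := by simp
  map_add' M M' := by simp [sum_add_distrib]
  map_mul' M M' := by
    simp only [CStarMatrix.mul_apply, map_sum, sum_mul]
    refine sum_congr rfl fun i _ => ?_
    rw [sum_comm]
    refine sum_congr rfl fun j _ => ?_
    simp only [mul_sum, h.mul, Fin.val_inj]
    rw [sum_comm]
    simp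
  map_star' M := by
    simp only [CStarMatrix.star_apply, star_sum, h.adj]
    exact sum_comm

theorem IsStab.hom_apply (h : IsStab E) {n : ℕ} (M : Mat n C) :
    h.hom n M = ∑ i : Fin n, ∑ j : Fin n, E i j (M i j) := rfl

theorem IsStab.hom_padTo (h : IsStab E) {k N : ℕ} (e : k ≤ N) (M : Mat k C) :
    h.hom N (CStarMatrix.ofMatrix (P133K.padTo N M)) = h.hom k M := by
  obtain ⟨n, rfl⟩ := Nat.exists_eq_add_of_le e
  simp [h.hom_apply, P133K.padTo, Fin.sum_univ_add]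

theorem IsStab.inj_hom (h : IsStab E) (n : ℕ) : Function.Injective (h.hom n) := by
  refine (injective_iff_map_eq_zero _).2 fun M e => ?_
  ext i j
  have e1 := congrArg (fun x => E 0 i (star (M i j)) * x * E j 0 (star (M i j) * M i j)) e
  simp only [h.hom_apply, mul_sum, h.mul, Fin.val_inj, sum_ite_irrel, sum_const_zero, sum_ite_eq,
    mem_univ, if_true, sum_mul, sum_ite_eq', mul_zero, zero_mul] at e1
  have e2 := h.inj (e1.trans (map_zero _).symm)
  nth_rw 1 [← (IsSelfAdjoint.star_mul_self (M i j)).star_eq] at e2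
  exact (CStarRing.star_mul_self_eq_zero_iff _).1 ((CStarRing.star_mul_self_eq_zero_iff _).1 e2)

theorem IsStab.dense_hom (h : IsStab E) : Dense {b : B | ∃ n M, h.hom n M = b} := by
  refine h.dense.mono fun x hx => ?_
  induction hx using Submodule.span_induction with
  | mem x hx =>
    obtain ⟨i, j, a, rfl⟩ := hx
    refine ⟨i + j + 1, CStarMatrix.ofMatrix (Matrix.single ⟨i, by omega⟩ ⟨j, by omega⟩ a), ?_⟩
    simp [h.hom_apply, Matrix.single, ite_and, apply_ite (E _ _)]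
  | zero => exact ⟨0, 0, map_zero _⟩
  | add x y _ _ hx hy =>
    obtain ⟨n, M, rfl⟩ := hx
    obtain ⟨m, M', rfl⟩ := hy
    exact ⟨n + m, _, (map_add _ _ _).trans (congrArg₂ (· + ·)
      (h.hom_padTo (Nat.le_add_right n m) M) (h.hom_padTo (Nat.le_add_left m n) M'))⟩
  | smul c x _ hx =>
    obtain ⟨n, M, rfl⟩ := hx
    exact ⟨n, _, map_smul _ _ _⟩

variable [PartialOrder C] [StarOrderedRing C]

theorem IsStab.cuntz_iff (hT : IsStab E) {k : ℕ} (u v : Mat k C) :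
    Cuntz (hT.hom k u) (hT.hom k v) ↔ CuntzLE u v := by
  have key : ∀ (n : ℕ) (x : Mat (k + n) C), ‖star x * pad n v * x - pad n u‖ =
      ‖star (hT.hom _ x) * hT.hom k v * hT.hom _ x - hT.hom k u‖ := fun n x => by
    rw [← NonUnitalStarAlgHom.norm_map _ (hT.inj_hom _), map_sub, map_mul, map_mul, map_star,
      ← hT.hom_padTo (Nat.le_add_right k n) u, ← hT.hom_padTo (Nat.le_add_right k n) v]
    rfl
  constructor
  · rintro ⟨x, hx⟩ ε hε
    have ho : IsOpen {y : B | ‖star y * hT.hom k v * y - hT.hom k u‖ < ε} :=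
      isOpen_lt (by fun_prop) continuous_const
    obtain ⟨j, hj⟩ := (hx.eventually (gt_mem_nhds hε)).exists
    obtain ⟨_, ⟨n, M, rfl⟩, h⟩ := hT.dense_hom.exists_mem_open ho ⟨x j, hj⟩
    refine ⟨n, CStarMatrix.ofMatrix (P133K.padTo _ M), ?_⟩
    rw [key, hT.hom_padTo (Nat.le_add_left n k) M]
    exact h
  · intro h
    choose n x hx using fun j : ℕ => h (1 / ((j : ℝ) + 1)) Nat.one_div_pos_of_nat
    exact ⟨fun j => hT.hom _ (x j), squeeze_zero (fun _ => norm_nonneg _)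
      (fun j => ((key _ _).symm.trans_lt (hx j)).le) tendsto_one_div_add_atTop_nhds_zero_nat⟩

theorem IsStab.amp_iff (hT : IsStab E) (n : ℕ) :
    AmpInf E n ↔ ∀ h : C, 0 ≤ h → ProperlyInfiniteMat (diagN n h) := by
  refine forall₂_congr fun h _ => ?_
  rw [ProperlyInfiniteMat, ← hT.cuntz_iff, ← Fin.sum_univ_eq_sum_range fun i => E i i h,
    ← Fin.sum_univ_eq_sum_range fun i => E i i h]
  simp [hT.hom_apply, dsum, diagN, Fin.sum_univ_add, Matrix.diagonal_apply, apply_ite (E _ _),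
    -Fin.natAdd_eq_addNat]

theorem IsStab.wpi_iff (hT : IsStab E) : WPI E ↔ WeaklyPurelyInfinite C :=
  exists_congr fun n => and_congr_right fun _ => hT.amp_iff n

theorem IsStab.pi_iff (hT : IsStab E) : AmpInf E 1 ↔ PurelyInfinite C := by
  refine forall₂_congr fun h _ => ?_
  rw [ProperlyInfinite, ← hT.cuntz_iff]
  simp [hT.hom_apply, sum_range_succ]

theorem IsStab.four (hT : IsStab E) : (AmpInf E 1 ↔ SPI C) ∧
    (∀ (D : Type w) [NonUnitalCStarAlgebra D] [PartialOrder D] [StarOrderedRing D],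
      (NucEmb C D ∨ SubExp D ∧ Onto D C) → (WPI E ↔ SPI C)) ∧
    (TopologicalSpace.SeparableSpace C → IsNuc (fun a : C => a) →
      ∀ (O D : Type u) [CStarAlgebra O] [NonUnitalCStarAlgebra D],
        IsOInfty O → IsTensor C O D → (WPI E ↔ Iso C D)) := by
  obtain ⟨h1, -, h3, -, -, -, -, h8⟩ := P133O.final_of.{u, w} P133O.rowEX P133O.rowUNI
    P133O.rowCEN P133O.rowINT P133O.rowCONV
  rw [hT.pi_iff, hT.wpi_iff]
  refine ⟨h1 C, fun D _ _ _ h => ?_, fun _ h O D _ _ hO ⟨S, hS⟩ =>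
    (h8 C h O D S ⟨hO.1, hO.2⟩ ⟨hS.1, hS.2.1, hS.2.2.1, hS.2.2.2⟩).1⟩
  obtain ⟨ι, a, b⟩ | ⟨a, q, b⟩ := h
  · exact (h3 C D ι a b).2
  refine ⟨fun ⟨n, hn, h⟩ => (h1 C).1 ?_, fun h => wpi_of_pi ((h1 C).2 h)⟩
  obtain ⟨κ, κ0, hκ⟩ := dom_of_subExp q b a
  obtain ⟨K, K0, hK⟩ := pi_of_smallW.{u} hn (δ := ((14 * Real.exp 1 * 4) ^ 2)⁻¹) (by positivity)
  obtain ⟨c, c0, d, hd⟩ := smallW_of_dom.{u} hn κ0 K0
  obtain ⟨r, r1, hr⟩ := hd C (d + 1) d.le_succ (hκ _ _ (by positivity))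
  exact hK C h r r1 hr

theorem large {n : ℕ} (hn : 1 ≤ n) {δ : ℝ} (hδ : 0 < δ) : ∃ c : ℝ, 0 < c ∧
    ∀ (C : Type u) [NonUnitalCStarAlgebra C] [PartialOrder C] [StarOrderedRing C] (B : Type v)
      [NonUnitalCStarAlgebra B] (E : Fam C B), IsStab E → AmpInf E n → ¬ SPI C →
      ∀ d : ℕ, 1 ≤ d → ∃ y : Fin d → Mat n C, SaC y ∧
        ∀ N : ℕ, 1 ≤ N → ∀ W : Fin d → Mat N ℂ, SaC W →
          δ * d * N ≤ ∑ i, ∑ p, ∑ q, ‖W i p q‖ ^ 2 → c * d ≤ tn W y := by
  obtain ⟨K, K0, hK⟩ := pi_of_smallW.{u} hn hδ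
  exact ⟨K / n, by positivity, fun C _ _ _ B _ E hT h h' d hd => large_of_not hn fun hS =>
    h' ((P133.H681.pi_iff_spi C).1 (hK C ((hT.amp_iff n).1 h) d hd hS))⟩

theorem dom {n : ℕ} (hn : 1 ≤ n) {κ : ℝ} (hκ : 0 < κ) : ∃ c : ℝ, 0 < c ∧ ∃ d₀ : ℕ,
    ∀ (C : Type u) [NonUnitalCStarAlgebra C] [PartialOrder C] [StarOrderedRing C] (B : Type v)
      [NonUnitalCStarAlgebra B] (E : Fam C B), IsStab E → AmpInf E n →
      ∀ d : ℕ, d₀ ≤ d → Dom C κ d (c * d) → SPI C := by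
  obtain ⟨K, K0, hK⟩ := pi_of_smallW.{u} hn (δ := ((14 * Real.exp 1 * 4) ^ 2)⁻¹) (by positivity)
  obtain ⟨c, c0, d₀, hd⟩ := smallW_of_dom.{u} hn hκ K0
  refine ⟨c, c0, d₀, fun C _ _ _ B _ E hT h d e hD => ?_⟩
  obtain ⟨r, r1, hr⟩ := hd C d e hD
  exact (P133.H681.pi_iff_spi C).1 (hK C ((hT.amp_iff n).1 h) r r1 hr)

theorem exist : ∃ (O : Type u) (_ : CStarAlgebra O), IsOInfty O ∧
    ∀ (C : Type u) [NonUnitalCStarAlgebra C],
      (∃ (B : Type u) (_ : NonUnitalCStarAlgebra B) (E : Fam C B), IsStab E) ∧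
        ∃ (D : Type u) (_ : NonUnitalCStarAlgebra D), IsTensor C O D := by
  obtain ⟨-, -, -, -, ⟨O, iO, hO⟩, -, h7, -⟩ := P133O.final_of.{u, u} P133O.rowEX P133O.rowUNI
    P133O.rowCEN P133O.rowINT P133O.rowCONV
  refine ⟨O, iO, ⟨hO.1, hO.2⟩, fun C _ => ⟨?_, ?_⟩⟩
  · obtain ⟨B, iB, T, hT⟩ := P133K.exists_stabilization C
    refine ⟨B, iB, fun i j => T.flip (P133K.unit i j), fun i j k l a b => ?_, fun i j a => ?_,
      (injective_iff_map_eq_zero _).2 fun a e => ?_, hT.dense_corner.mono ?_⟩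
    · simp only [LinearMap.flip_apply, ← hT.map_mul, P133K.unit_mul_unit, apply_ite (T _), map_zero]
    · simp only [LinearMap.flip_apply, ← hT.map_star, P133K.star_unit]
    · exact congrFun (congrFun (hT.corner_eq_zero (M := !![a]) (by simpa [P133K.corner] using e)) 0) 0
    · rintro _ ⟨n, M, rfl⟩
      exact Submodule.sum_mem _ fun i _ => Submodule.sum_mem _ fun j _ =>
        Submodule.subset_span ⟨i, j, _, rfl⟩
  · obtain ⟨D, iD, S, hS⟩ := h7 C O
    exact ⟨D, iD, S, hS.map_mul, hS.map_star, hS.injective, hS.dense⟩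

end Vale.Agent.N133X
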