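import Vale.Agent.N133X.Norm

/-! Every tuple is dominated by matrices of size `exp (L d N ^ 2)`; nuclear embeddings. -/

namespace Vale.Agent.N133X

open Vale.Agent.P133Z Finset UniformSpace
open scoped ComplexOrder InnerProductSpace CStarAlgebra

universe u

variable {A : Type u} [NonUnitalCStarAlgebra A] [PartialOrder A] [StarOrderedRing A] {d N : ℕ}

theorem bd_complex {I J : Type} [Fintype I] [Fintype J] {X : I → J → ℂ} {C : ℝ} :
    Bd X C ↔ ∀ w : J → ℂ, ∑ p, ‖∑ q, X p q * w q‖ ^ 2 ≤ C * ∑ q, ‖w q‖ ^ 2 := by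
  refine forall_congr' fun w => ?_
  rw [col_complex, col_complex, Complex.real_smul, ← Complex.ofReal_mul, Complex.real_le_real]

theorem compress {H : Type*} [NormedAddCommGroup H] [InnerProductSpace ℂ H] [CompleteSpace H]
    (π : A →⋆ₙₐ[ℂ] (H →L[ℂ] H)) {D : ℕ} {e : Fin D → H} (he : Orthonormal ℂ e) :
    ∃ φ : A →ₗ[ℂ] Mat D ℂ, (∀ a, ‖φ a‖ ≤ ‖a‖) ∧ ∀ (Y : Mat N A) (w : Fin N × Fin D → ℂ) p,
      ∑ q, flat (CStarMatrix.mapₗ φ Y) p q * w q =
        ⟪e p.2, ∑ q, π (Y p.1 q) (∑ t, w (q, t) • e t)⟫_ℂ := by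
  refine ⟨{ toFun := fun a => CStarMatrix.ofMatrix (Matrix.of fun s t => ⟪e s, π a (e t)⟫_ℂ)
            map_add' := fun a a' => by ext; simp [inner_add_right]
            map_smul' := fun c a => by ext; simp [inner_smul_right] },
    fun a => norm_of_bd (norm_nonneg _) (bd_inner he _ (NonUnitalStarAlgHom.norm_apply_le π a)),
    fun Y w p => ?_⟩
  simp only [map_sum, map_smul, inner_sum, inner_smul_right, Fintype.sum_prod_type, mul_comm (w _)]
  rfl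

theorem norming_rep {H : Type*} [NormedAddCommGroup H] [InnerProductSpace ℂ H] [CompleteSpace H]
    (π : A →⋆ₙₐ[ℂ] (H →L[ℂ] H)) (ι : A →ₗ[ℂ] H) (h1 : ∀ a x, π a (ι x) = ι (a * x))
    (h2 : ∀ (x y : Fin N → A) (c : ℝ), col y ≤ c • col x →
      ∑ p, ‖ι (y p)‖ ^ 2 ≤ c * ∑ p, ‖ι (x p)‖ ^ 2) (X : Mat N A) {t : ℝ} (z : Fin N → A)
    (hz : t ^ 2 * ∑ p, ‖ι (z p)‖ ^ 2 < ∑ p, ‖ι (∑ q, X p q * z q)‖ ^ 2) :
    ∃ D ≤ 2 * N, ∃ φ : A →ₗ[ℂ] Mat D ℂ, (∀ a, ‖φ a‖ ≤ ‖a‖) ∧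
      (∀ Y : Mat N A, ‖CStarMatrix.mapₗ φ Y‖ ≤ ‖Y‖) ∧ t ≤ ‖CStarMatrix.mapₗ φ X‖ := by
  let v : Fin N ⊕ Fin N → H := Sum.elim (fun q => ι (z q)) fun p => ι (∑ q, X p q * z q)
  obtain ⟨D, hD, e, he, h0, h3⟩ : ∃ D ≤ 2 * N, ∃ e : Fin D → H, Orthonormal ℂ e ∧
      (∀ t, e t ∈ LinearMap.range ι) ∧ ∀ i, ∑ a, ⟪e a, v i⟫_ℂ • e a = v i := by
    let S := Submodule.span ℂ (Set.range v)
    have : FiniteDimensional ℂ S := FiniteDimensional.span_of_finite ℂ (Set.finite_range _)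
    let b := stdOrthonormalBasis ℂ S
    have k : S ≤ LinearMap.range ι := Submodule.span_le.2 (by
      rintro _ ⟨q | q, rfl⟩ <;> exact ⟨_, rfl⟩)
    refine ⟨Module.finrank ℂ S, (finrank_range_le_card v).trans_eq (by simp [two_mul]), fun a => b a,
      b.orthonormal.comp_linearIsometry S.subtypeₗᵢ, fun t => k (b t).2, fun i => ?_⟩
    simpa only [Submodule.coe_sum, Submodule.coe_smul, Submodule.coe_inner] using
      congrArg (fun x : S => (x : H)) (b.sum_repr' ⟨v i, Submodule.subset_span ⟨i, rfl⟩⟩)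
  have h4 : ∀ c : _ → ℂ, ‖∑ a, c a • e a‖ ^ 2 = ∑ a, ‖c a‖ ^ 2 := fun c =>
    norm_sq_eq_of_inner (by
      rw [he.inner_sum, ← col_complex]
      rfl)
  have h5 : ∀ i, ‖v i‖ ^ 2 = ∑ a, ‖⟪e a, v i⟫_ℂ‖ ^ 2 := fun i => by rw [← h4, h3]
  obtain ⟨φ, h6, h7⟩ := compress (N := N) π he
  refine ⟨D, hD, φ, h6,
    fun Y => (norm_flat _).symm.trans_le (norm_of_bd (norm_nonneg _) (bd_complex.2 fun w => ?_)),
    not_lt.1 fun h => hz.not_ge ?_⟩
  · choose x hx using fun q => (Submodule.sum_mem _ fun t _ => Submodule.smul_mem _ _ (h0 t) :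
      ∑ t, w (q, t) • e t ∈ LinearMap.range ι)
    have k1 := h2 _ _ _ (bd_of_norm (X := Y) le_rfl x)
    simp only [hx, h4] at k1
    simp only [h7, ← hx, h1, ← map_sum ι]
    rw [Fintype.sum_prod_type, Fintype.sum_prod_type (f := fun q => ‖w q‖ ^ 2)]
    exact le_trans (sum_le_sum fun p _ => he.sum_inner_products_le (ι (∑ q, Y p q * x q))) k1
  · have k := bd_complex.1 (bd_of_norm ((norm_flat _).trans_le h.le)) fun q => ⟪e q.2, ι (z q.1)⟫_ℂ
    have k1 : ∀ q, ∑ a, ⟪e a, ι (z q)⟫_ℂ • e a = ι (z q) := fun q => h3 (.inl q)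
    simp only [h7, k1, h1] at k
    simp only [Fintype.sum_prod_type, ← map_sum ι] at k
    exact (sum_congr rfl fun p _ => h5 (.inr p)).trans_le
      (k.trans_eq (congrArg _ (sum_congr rfl fun p _ => h5 (.inl p)).symm))

theorem norming (X : Mat N A) {t : ℝ} (ht : 0 ≤ t) : ∃ D ≤ 2 * N, ∃ φ : A →ₗ[ℂ] Mat D ℂ,
    (∀ a, ‖φ a‖ ≤ ‖a‖) ∧ (∀ Y : Mat N A, ‖CStarMatrix.mapₗ φ Y‖ ≤ ‖Y‖) ∧
      (t < ‖X‖ → t ≤ ‖CStarMatrix.mapₗ φ X‖) := by
  by_cases hX : Bd (fun p q => X p q) (t ^ 2)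
  · refine ⟨0, Nat.zero_le _, 0, fun a => by simp, fun Y => ?_,
      fun h => absurd (norm_of_bd ht hX) h.not_ge⟩
    exact (norm_zero (E := Mat N (Mat 0 ℂ))).trans_le (norm_nonneg _)
  obtain ⟨z, hz⟩ := not_forall.1 hX
  obtain ⟨f, hf⟩ := not_forall.1 fun h => hz (sub_nonneg.1 (nonneg_of_forall_pos
    (((IsSelfAdjoint.all _).smul (IsSelfAdjoint.of_nonneg (col_nonneg z))).sub
      (IsSelfAdjoint.of_nonneg (col_nonneg _))) h))
  obtain ⟨ι, h1, h2⟩ : ∃ ι : A →ₗ[ℂ] f.GNS, (∀ a x, f.gnsNonUnitalStarAlgHom a (ι x) = ι (a * x)) ∧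
      ∀ (x y : Fin N → A) (c : ℝ), (f (c • col x - col y)).re =
        c * ∑ p, ‖ι (x p)‖ ^ 2 - ∑ p, ‖ι (y p)‖ ^ 2 :=
    ⟨(Completion.toComplL (𝕜 := ℂ) (E := f.PreGNS)).toLinearMap ∘ₗ f.toPreGNS.toLinearMap,
      fun a x => f.gnsNonUnitalStarAlgHom_apply_coe, fun x y c => by
        rw [map_sub, ← Complex.coe_smul, map_smul, Complex.sub_re, smul_eq_mul,
          Complex.re_ofReal_mul, re_col, re_col]
        rfl⟩
  rw [h2, sub_nonneg, not_le] at hf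
  obtain ⟨D, hD, φ, a, b, c⟩ := norming_rep _ ι h1 (fun x y c h => sub_nonneg.1
    ((Complex.nonneg_iff.1 (map_nonneg f (sub_nonneg.2 h))).1.trans_eq (h2 x y c))) X z hf
  exact ⟨D, hD, φ, a, b, fun _ => c⟩

theorem tn_map {B : Type*} [NonUnitalCStarAlgebra B] [PartialOrder B] [StarOrderedRing B]
    (φ : A →ₗ[ℂ] B) (m : Fin d → Mat N ℂ) (a : Fin d → A) : tn m (fun i => φ (a i)) =
      ‖CStarMatrix.mapₗ φ (CStarMatrix.ofMatrix (Matrix.of fun p q => ∑ i, m i p q • a i))‖ := by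
  unfold tn
  congr 1
  ext p q
  simp [CStarMatrix.map]
  rfl

theorem exists_sum {S : Type*} [Fintype S] (D : S → ℕ) (x : Fin d → ∀ c, Mat (D c) ℂ)
    (hx : ∀ i c, ‖x i c‖ ≤ 1) {κ : ℝ} (hκ : 0 ≤ κ) : ∃ b : Fin d → Mat (∑ c, D c) ℂ,
      (∀ i, ‖b i‖ ≤ κ) ∧ ∀ (m : Fin d → Mat N ℂ) c, κ * tn m (fun i => x i c) ≤ tn m b := by
  classical
  let e : Fin (∑ c, D c) ≃ Σ c, Fin (D c) := Fintype.equivOfCardEq (by simp)
  let Ψ : (∀ c, Mat (D c) ℂ) →⋆ₙₐ[ℂ] Mat (∑ c, D c) ℂ :=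
    { toFun := fun y => CStarMatrix.ofMatrix ((Matrix.blockDiagonal' y).submatrix e e)
      map_smul' := fun c y => congrArg (Matrix.submatrix · e e) (Matrix.blockDiagonal'_smul c y)
      map_zero' := congrArg (Matrix.submatrix · e e) Matrix.blockDiagonal'_zero
      map_add' := fun y y' => congrArg (Matrix.submatrix · e e) (Matrix.blockDiagonal'_add y y')
      map_mul' := fun y y' => (congrArg (Matrix.submatrix · e e)
        (Matrix.blockDiagonal'_mul y y')).trans (Matrix.submatrix_mul_equiv _ _ _ e _).symm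
      map_star' := fun y => congrArg (Matrix.submatrix · e e)
        (Matrix.blockDiagonal'_conjTranspose y).symm }
  refine ⟨fun i => (κ : ℂ) • Ψ (x i), fun i => ?_, fun m c => ?_⟩
  · rw [norm_smul, Complex.norm_of_nonneg hκ]
    exact mul_le_of_le_one_right hκ ((NonUnitalStarAlgHom.norm_apply_le Ψ _).trans
      ((pi_norm_le_iff_of_nonneg zero_le_one).2 (hx i)))
  · have k : Function.Injective fun p : Fin N × Fin (D c) => (p.1, e.symm ⟨c, p.2⟩) := by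
      rintro ⟨p, s⟩ ⟨q, t⟩ h
      simpa using h
    have k0 : ∀ i s t, Ψ (x i) (e.symm ⟨c, s⟩) (e.symm ⟨c, t⟩) = x i c s t := fun i s t => by
      show Matrix.blockDiagonal' _ (e (e.symm _)) (e (e.symm _)) = _
      rw [e.apply_symm_apply, e.apply_symm_apply]
      exact Matrix.blockDiagonal'_apply_eq _ _ _ _
    have k1 := (bd_nested (W := m) (y := fun i => (κ : ℂ) • Ψ (x i)) le_rfl).sub k k
    have k2 := norm_of_bd (X := (κ : ℂ) • flat (CStarMatrix.ofMatrix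
      (Matrix.of fun p q => ∑ i, m i p q • x i c))) (tn_nonneg _ _) (by
        convert k1 using 3 with p q
        refine (congrArg ((κ : ℂ) • ·) (csum (fun i => m i p.1 q.1 • x i c) _ _)).trans ?_
        simp only [CStarMatrix.smul_apply, k0, smul_sum, smul_comm (κ : ℂ)])
    rwa [norm_smul, Complex.norm_of_nonneg hκ, norm_flat] at k2

theorem exists_net2 (E : Type*) [NormedAddCommGroup E] [NormedSpace ℂ E] [FiniteDimensional ℂ E] :
    ∃ s : Finset E, s.card ≤ 5 ^ (2 * Module.finrank ℂ E) * 5 ^ (2 * Module.finrank ℂ E) ∧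
      ∀ v, ‖v‖ ≤ 2 → ∃ c ∈ s, ‖v - c‖ ≤ 1 / 2 := by
  classical
  obtain ⟨s, s1, -, s2⟩ := exists_net E
  rw [finrank_real_of_complex] at s1
  refine ⟨image₂ (fun c c' => c + (1 / 2 : ℝ) • c') s s, (card_image₂_le _ _ _).trans
    (Nat.mul_le_mul s1 s1), fun v hv => ?_⟩
  obtain ⟨c, hc, e1⟩ := s2 v hv
  obtain ⟨c', hc', e2⟩ := s2 ((2 : ℝ) • (v - c)) (by rw [norm_smul, Real.norm_two]; linarith)
  refine ⟨_, mem_image₂_of_mem hc hc', ?_⟩
  rw [show v - (c + (1 / 2 : ℝ) • c') = (1 / 2 : ℝ) • ((2 : ℝ) • (v - c) - c') by module, norm_smul,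
    Real.norm_of_nonneg (by norm_num)]
  linarith

theorem exists_net3 {V E : Type*} [AddCommGroup V] [Module ℂ V] [FiniteDimensional ℂ V]
    [NormedAddCommGroup E] [NormedSpace ℂ E] (T : V →ₗ[ℂ] E) {k : ℕ} (hk : Module.finrank ℂ V = k) :
    ∃ s : Finset E, s.card ≤ 5 ^ (2 * k) * 5 ^ (2 * k) ∧
      ∀ x, 0 < ‖T x‖ → ∃ c ∈ s, ‖((2 / ‖T x‖ : ℝ) : ℂ) • T x - c‖ ≤ 1 / 2 := by
  obtain ⟨s, s1, s2⟩ := exists_net2 (LinearMap.range T)
  have e1 := T.finrank_range_le.trans_eq hk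
  refine ⟨s.map (Function.Embedding.subtype _), (card_map _).trans_le
    (s1.trans (by gcongr <;> norm_num)), fun x v0 => ?_⟩
  obtain ⟨c, hc, e⟩ := s2 ⟨((2 / ‖T x‖ : ℝ) : ℂ) • T x, Submodule.smul_mem _ _ ⟨_, rfl⟩⟩
    (le_of_eq (show ‖((2 / ‖T x‖ : ℝ) : ℂ) • T x‖ = 2 by
      rw [norm_smul, Complex.norm_of_nonneg (by positivity), div_mul_cancel₀ _ v0.ne']))
  exact ⟨c, mem_map_of_mem _ hc, e⟩

theorem net_aux {E F : Type*} [NormedAddCommGroup E] [NormedSpace ℂ E] [NormedAddCommGroup F]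
    [NormedSpace ℂ F] (Φ : E →ₗ[ℂ] F) (h : ∀ y, ‖Φ y‖ ≤ ‖y‖) {v c : E} (v0 : 0 < ‖v‖)
    (hc : 7 / 6 < ‖c‖ → 7 / 6 ≤ ‖Φ c‖) (e2 : ‖((2 / ‖v‖ : ℝ) : ℂ) • v - c‖ ≤ 1 / 2) :
    ‖v‖ ≤ 3 * ‖Φ v‖ := by
  have n1 : ‖((2 / ‖v‖ : ℝ) : ℂ) • v‖ = 2 := by
    rw [norm_smul, Complex.norm_of_nonneg (by positivity), div_mul_cancel₀ _ v0.ne']
  have e4 := hc (by linarith [norm_sub_norm_le (((2 / ‖v‖ : ℝ) : ℂ) • v) c])
  have e5 := (h _).trans e2
  rw [map_sub, norm_sub_rev] at e5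
  have e6 := (norm_sub_norm_le _ _).trans e5
  rw [map_smul, norm_smul, Complex.norm_of_nonneg (by positivity), div_mul_eq_mul_div,
    sub_le_comm, le_div_iff₀ v0] at e6
  nlinarith

theorem dom_univ : Dom A 3 d (20 * d ^ 2) := by
  classical
  intro a ha
  obtain ⟨T, hT⟩ : ∃ T : (Fin d × Fin d × Fin d → ℂ) →ₗ[ℂ] Mat d A, ∀ m : Fin d → Mat d ℂ,
      T (fun x => m x.1 x.2.1 x.2.2) =
        CStarMatrix.ofMatrix (Matrix.of fun p q => ∑ i, m i p q • a i) :=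
    ⟨{ toFun := fun m => CStarMatrix.ofMatrix (Matrix.of fun p q => ∑ i, m (i, p, q) • a i)
       map_add' := fun m m' => by ext; simp [add_smul, sum_add_distrib]
       map_smul' := fun c m => by ext; simp [smul_sum, mul_smul] }, fun _ => rfl⟩
  obtain ⟨s, s1, s2⟩ := exists_net3 T (k := d ^ 3) (by simp; ring)
  choose D hD φ h1 h2 h3 using fun c : s => norming (N := d) c.1 (t := 7 / 6) (by norm_num)
  obtain ⟨b, hb, hm⟩ := exists_sum (N := d) D (fun i c => φ c (a i))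
    (fun i c => (h1 c _).trans (ha i)) (κ := 3) (by norm_num)
  refine ⟨d, _, le_rfl, ?_, b, hb, fun m => ?_⟩
  · have e2 : ∑ c, D c ≤ 5 ^ (2 * d ^ 3) * 5 ^ (2 * d ^ 3) * (2 * d) :=
      (sum_le_card_nsmul _ _ _ fun c _ => hD c).trans (by
        rw [card_univ, Fintype.card_coe, smul_eq_mul]
        exact Nat.mul_le_mul_right _ s1)
    have e3 : (5 : ℝ) ≤ Real.exp 4 := by linarith [Real.add_one_le_exp 4]
    have e4 : (d : ℝ) ≤ d ^ 3 := by exact_mod_cast Nat.le_self_pow three_ne_zero d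
    calc _ ≤ (Real.exp 4 ^ (2 * d ^ 3) * Real.exp 4 ^ (2 * d ^ 3) * Real.exp (2 * d) : ℝ) := by
          refine (Nat.cast_le.2 e2).trans ?_
          push_cast
          gcongr
          linarith [Real.add_one_le_exp (2 * d)]
      _ ≤ _ := by
          rw [← Real.exp_nat_mul, ← Real.exp_add, ← Real.exp_add, Real.exp_le_exp]
          push_cast
          nlinarith [pow_nonneg (Nat.cast_nonneg (α := ℝ) d) 3]
  · refine le_of_not_gt fun k => ?_
    have v0 := (tn_nonneg _ _).trans_lt k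
    rw [tn, ← hT] at v0
    obtain ⟨c, hc, e1⟩ := s2 _ v0
    have e2 := net_aux _ (h2 ⟨c, hc⟩) v0 (h3 ⟨c, hc⟩) e1
    rw [hT, ← tn_map] at e2
    exact (e2.trans (hm m _)).not_gt k

theorem dom_nuc {B : Type*} [NonUnitalCStarAlgebra B] [PartialOrder B] [StarOrderedRing B]
    (ι : A →⋆ₙₐ[ℂ] B) (hι : Function.Injective ι) (h : IsNuc ι) {l : ℝ} (hl : 0 < l) :
    Dom A 2 d l := by
  classical
  intro a ha
  obtain ⟨D, φ, ψ, h1, h2, h3⟩ := h (univ.image a) (1 / (d + 1)) (by positivity)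
  obtain ⟨N, hN⟩ := exists_nat_ge ((∑ c : Option (Fin d), (c.elim D fun _ => 1 : ℕ)) / l + d)
  obtain ⟨b, hb, hm⟩ := exists_sum (N := N) (fun c : Option (Fin d) => c.elim D fun _ => 1)
    (fun i c => Option.rec (φ (a i)) (fun j => if i = j then 1 else 0) c) (fun i c => by
      rcases c with _ | j
      · exact (h1 _).trans (ha i)
      · show ‖(if i = j then 1 else 0 : Mat 1 ℂ)‖ ≤ 1
        split_ifs <;> simp) zero_le_two
  refine ⟨N, _, Nat.cast_le.1 (le_trans (le_add_of_nonneg_left (by positivity)) hN), ?_, b, hb,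
    fun m => ?_⟩
  · have := (div_le_iff₀ hl).1 (le_trans (le_add_of_nonneg_right (by positivity)) hN)
    linarith [Real.add_one_le_exp (l * N)]
  have k1 := bd_cp ψ h2 (I := Fin N) (X := fun p q => ∑ i, m i p q • φ (a i)) (sq_nonneg _)
    (sf_of_bd (sq_nonneg _) (by
      have := bd_nested ((le_div_iff₀' two_pos).2 (hm m none))
      exact (funext₂ fun p q : Fin N × Fin D =>
        csum (fun i => m i p.1 q.1 • φ (a i)) p.2 q.2).symm ▸ this))
  have k2 : ∀ i, Bd (fun p q => m i p q • (ι (a i) - ψ (φ (a i))))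
      ((tn m b / 2) ^ 2 * (1 / (d + 1)) ^ 2) := fun i z => by
    have e1 := (bd_nested ((le_div_iff₀' two_pos).2 (hm m (some i)))).sub
      (e := fun p => (p, (0 : Fin 1))) (fun _ _ h => congrArg Prod.fst h)
      (e' := fun p => (p, (0 : Fin 1))) fun _ _ h => congrArg Prod.fst h
    have e2 : SF (fun p q => m i p q) ((tn m b / 2) ^ 2) := sf_of_bd (sq_nonneg _) (by
      convert e1 using 3 with p q
      refine ((sum_eq_single i (fun j _ h => ?_) (by simp)).trans ?_).symm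
      · simp [h]
      · simp)
    simp only [smul_mul_assoc]
    refine (e2.col_le _).trans ?_
    rw [mul_smul]
    refine rsmul_le (sq_nonneg _) ?_
    rw [col, col, smul_sum]
    exact sum_le_sum fun q _ => (sq_mul_le _ _).trans (rsmul_mono (star_mul_self_nonneg _)
      (pow_le_pow_left₀ (norm_nonneg _) ((norm_sub_rev _ _).trans_le
        (h3 _ (mem_image_of_mem _ (mem_univ i))).le) 2))
  refine norm_of_bd (tn_nonneg _ _) (Bd.of_map ι hι (Bd.mono ?_ (C := 2 * (tn m b / 2) ^ 2 +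
    2 * ((Fintype.card (Fin d) : ℝ) ^ 2 * ((tn m b / 2) ^ 2 * (1 / (d + 1)) ^ 2))) ?_))
  · convert k1.add (Bd.sum k2) using 3 with p q
    simp [smul_sub]
  · have : (d : ℝ) ^ 2 * (1 / (d + 1)) ^ 2 ≤ 1 := by
      rw [← mul_pow]
      exact pow_le_one₀ (by positivity) (by rw [mul_one_div, div_le_one (by positivity)]; linarith)
    rw [Fintype.card_fin]
    nlinarith [sq_nonneg (tn m b)]

end Vale.Agent.N133X
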